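import Vale.Agent.P011.W.Abhn
import Vale.Agent.P011.W.Eich2
import Vale.Agent.P011.Pow.Ec

/-!
The theorem of Albert, Brauer, Hasse and Noether in every odd degree, and the element of the
algebra attached to a polynomial.
-/

open NumberField IsDedekindDomain Polynomial Module

namespace Vale.Agent.P011.H380.Good7

open Vale.Agent.P011.W Vale.Agent.P011.Arith

variable {F D : Type} [Field F] [NumberField F] [DivisionRing D] [Algebra F D]
    [FiniteDimensional F D] [Algebra.IsCentral F D] {d : ℕ}

/-- Albert, Brauer, Hasse, Noether in every odd degree -/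
theorem abhn_odd (hd : Odd d) (hD : finrank F D = d ^ 2) (E : Type) [Field E] [NumberField E]
    [Algebra F E] (hfin : ∀ w : HeightOneSpectrum (𝓞 E), Spl D d (pl (F := F) E w)) :
    Spl D d (algebraMap F E) := by
  obtain ⟨n, q, Δ, _, _, _, _, hnq, hn, hΔ, hiff⟩ := exists_part hD E
  have hqd : q ∣ d := ⟨n, by rw [← hnq, mul_comm]⟩
  -- no prime divides the index
  have hq : q = 1 := by
    by_contra hq1
    obtain ⟨p, hp, hpq⟩ := Nat.exists_prime_and_dvd hq1
    have hp2 : p ≠ 2 := by
      rintro rfl
      exact (Nat.not_even_iff_odd.mpr hd) (even_iff_two_dvd.mpr (hpq.trans hqd))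
    -- a Galois splitting field
    obtain ⟨L, _, _, _, j, _, hL, _⟩ := exists_maxfield hΔ (1 : Δ)
    have hsL := spl_of_maxfield hΔ hL j
    obtain ⟨N, _, _, _, _, ζ, g, hζ⟩ := exists_galois (K := E) (L := L) hp
    have hsN : Spl Δ q (algebraMap E N) := by
      have h1 := hsL.comp (g : L →+* N)
      have h2 : (g : L →+* N).comp (algebraMap E L) = algebraMap E N := by
        ext x
        exact g.commutes x
      rwa [h2] at h1
    -- the fixed field of a Sylow subgroup
    have hfact : Fact p.Prime := ⟨hp⟩
    obtain ⟨P⟩ : Nonempty (Sylow p (N ≃ₐ[E] N)) := inferInstance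
    set M := IntermediateField.fixedField (P : Subgroup (N ≃ₐ[E] N)) with hM
    obtain ⟨m, hm⟩ := (IsPGroup.iff_card.mp P.isPGroup')
    have h1 : finrank M N = p ^ m := by
      rw [IntermediateField.finrank_fixedField_eq_card]; exact hm
    have h2 : Nat.Coprime (finrank E M) p := by
      have h3 := finrank_mul_finrank E M N
      have h4 := (P : Subgroup (N ≃ₐ[E] N)).card_mul_index
      rw [hm, IsGalois.card_aut_eq_finrank, ← h3, h1, mul_comm] at h4
      have h5 : (P : Subgroup (N ≃ₐ[E] N)).index = finrank E M :=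
        Nat.eq_of_mul_eq_mul_right (pow_pos hp.pos m) h4
      rw [← h5]
      exact (Nat.coprime_comm.mp ((Nat.Prime.coprime_iff_not_dvd hp).mpr P.not_dvd_index))
    have hfdM : FiniteDimensional E M := inferInstance
    have hchM : CharZero M := charZero_of_injective_algebraMap (algebraMap E M).injective
    have hfdQ : FiniteDimensional ℚ M := Module.Finite.trans E M
    have hnfM : NumberField M := { to_charZero := hchM, to_finiteDimensional := hfdQ }
    obtain ⟨z, _, hz⟩ := zeta_mem hp h1 hζ
    have hsM : Spl Δ q (algebraMap E M) := by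
      refine step_down hp hΔ m M hz ?_ ?_ N h1 ?_
      · intro w
        obtain ⟨v, hv⟩ := exists_below (F := E) w
        obtain ⟨g, hg⟩ := completion_map hv
        have h2 := ((hiff _ _).mp (hfin v)).comp g
        have h3 : g.comp (algebraMap E (v.adicCompletion E)) = pl (F := E) M w :=
          RingHom.ext fun x => hg x
        rwa [h3] at h2
      · intro hp2' ψ
        exact absurd hp2' hp2
      · have h3 : (algebraMap M N).comp (algebraMap E M) = algebraMap E N := by
          ext x
          exact (IsScalarTower.algebraMap_apply E M N _).symm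
        rwa [h3]
    have hdvd := dvd_of_spl hΔ M hsM
    have h3 : p ∣ finrank E M := hpq.trans hdvd
    have h4 : p ∣ 1 := by
      rw [← Nat.Coprime.gcd_eq_one h2]
      exact Nat.dvd_gcd h3 dvd_rfl
    exact hp.one_lt.ne' (Nat.dvd_one.mp h4)
  subst hq
  have h3 : Spl Δ 1 (algebraMap E E) := by
    refine spl_of_maxfield hΔ ?_ (Algebra.ofId E Δ)
    exact finrank_self E
  have h4 := (hiff E (algebraMap E E)).mpr h3
  rwa [Algebra.algebraMap_self, RingHom.id_comp] at h4

/-- **The element of the algebra attached to a polynomial.** -/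
theorem exists_root_of_poly (hodd : Odd d) (hD : finrank F D = d ^ 2) (f : F[X])
    (hn : f.natDegree = d) (hf : f.Monic)
    (hfin : ∀ (L : Type) [Field L] [NumberField L] [Algebra F L] (w : HeightOneSpectrum (𝓞 L))
      (ξ : L), aeval ξ f = 0 → Spl D d (pl (F := F) L w)) :
    Irreducible f ∧ ∃ t : D, minpoly F t = f ∧ HasNrd F d (t - 1) ((-1) ^ d * f.eval 1) := by
  have hd : 0 < d := deg_pos hD
  have hnu : ¬ IsUnit f := by
    intro hu
    have := natDegree_eq_zero_of_isUnit hu
    omega
  obtain ⟨g, hgm, hirr, h, hgh⟩ := exists_monic_irreducible_factor f hnu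
  obtain ⟨L, _, _, _, ξ, hξ, hL, hN⟩ := exists_root_field g hgm hirr
  have hfd : FiniteDimensional F L := Module.Finite.of_restrictScalars_finite ℚ F L
  have hξf : aeval ξ f = 0 := by rw [hgh, map_mul, hξ, zero_mul]
  have hspl : Spl D d (algebraMap F L) := abhn_odd hodd hD L (fun w => hfin L w ξ hξf)
  have hdvd := dvd_of_spl hD L hspl
  have hfg : f = g := by
    refine eq_of_monic_of_dvd_of_natDegree_le hgm hf ⟨h, hgh⟩ ?_
    rw [hn, ← hL]
    exact Nat.le_of_dvd Module.finrank_pos hdvd
  rw [← hfg] at hirr hξ hL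
  have hN1 := Pow.norm_sub_one hf hirr hL hξ
  rw [hn] at hL hN1
  obtain ⟨j⟩ := embed_of_spl hD hL hspl
  refine ⟨hirr, j ξ, ?_, ?_⟩
  · refine (minpoly.eq_of_irreducible_of_monic hirr ?_ hf).symm
    rw [aeval_algHom_apply, hξ, map_zero]
  · rw [← hN1]
    have h2 := hasNrd_norm hD hL j (ξ - 1)
    rwa [map_sub, map_one] at h2

end Vale.Agent.P011.H380.Good7
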