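import Vale.Agent.P011.H380.Good7.SplitMax
import Vale.Agent.P011.H673.NS.Bdd
import Vale.Agent.P011.H327.TNnf2
import Vale.Agent.P011.H327.RnInst

/-!
The inputs of the theorem on reduced norms near one, number fields: split maximal subfields, the
tower lemma, the reduced norm as a homomorphism.
-/

open NumberField IsDedekindDomain Polynomial Module

namespace Vale.Agent.P011.H380.Good7

open Vale.Agent.P011.W Vale.Agent.P011.H327.TN
open Vale.Agent.P011.H699.Odd (Near TN)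
open Vale.Agent.P011.H673.NS

section

variable {Z C : Type} [Field Z] [NumberField Z] [DivisionRing C] [Algebra Z C]
  [FiniteDimensional Z C] [Algebra.IsCentral Z C] {b : ℕ}

/-- The finite sets of places outside `T`. -/
abbrev JT (T : Set (HeightOneSpectrum (𝓞 Z))) : Type :=
  {S : Finset (HeightOneSpectrum (𝓞 Z)) // ∀ v ∈ S, v ∉ T}

/-- The places of a label. -/
abbrev plT (T : Set (HeightOneSpectrum (𝓞 Z))) (j : JT T) : Set (HeightOneSpectrum (𝓞 Z)) :=
  ↑j.1

omit [NumberField Z] in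
theorem jT_cofinal (T : Set (HeightOneSpectrum (𝓞 Z))) (S : Finset (HeightOneSpectrum (𝓞 Z)))
    (hS : ∀ v ∈ S, v ∉ T) : ∃ j : JT T, (S : Set (HeightOneSpectrum (𝓞 Z))) ⊆ plT T j :=
  ⟨⟨S, hS⟩, subset_rfl⟩

/-- (a) The split maximal subfields. -/
theorem hspl_nf (hC : finrank Z C = b ^ 2) {T : Set (HeightOneSpectrum (𝓞 Z))}
    (hspl : ∀ w, w ∉ T → Spl C b (algebraMap Z (w.adicCompletion Z))) (j : JT T) :
    ∃ t : C, (minpoly Z t).natDegree = b ∧ (minpoly Z t).Separable ∧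
      Sp (plT T) j (minpoly Z t) := by
  obtain ⟨t, ht, h⟩ := exists_split_max hC j.1 (fun v hv => hspl v (j.2 v hv))
  refine ⟨t, ht, (minpoly.irreducible (IsIntegral.of_finite Z t)).separable, fun V hV => ?_⟩
  exact (h V hV).1

/-- An element which is small at the places of a finite set. -/
theorem exists_small_T {T : Set (HeightOneSpectrum (𝓞 Z))} (hT : T.Finite) :
    ∃ q : Z, q ≠ 0 ∧ q ∈ OT T ∧ ∀ v ∈ T, v.valuation Z q < 1 := by
  obtain ⟨c, hc0, hc⟩ := H321.Avoid.exists_small Z hT.toFinset (fun _ => 1)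
    (fun _ _ => one_ne_zero)
  have h1 : ∀ v ∈ T, v.valuation Z (algebraMap (𝓞 Z) Z c) < 1 := fun v hv =>
    hc v (hT.mem_toFinset.mpr hv)
  refine ⟨algebraMap (𝓞 Z) Z c, ?_, fun v hv => (h1 v hv).le, h1⟩
  exact (_root_.map_ne_zero_iff _ (FaithfulSMul.algebraMap_injective (𝓞 Z) Z)).mpr hc0

/-- (b) The tower lemma over number fields. -/
theorem hatl_nf {T : Set (HeightOneSpectrum (𝓞 Z))} (hT : T.Finite) (W : Subgroup Zˣ)
    (hgood : ∀ j, GoodFor (OT T) W (Sp (plT T)) j) {p : ℕ} (hp : p.Prime) (hp2 : p ≠ 2) :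
    ∃ c ∈ OT T, c ≠ 0 ∧ ∃ r : ℕ, ¬ p ∣ r ∧ ∀ x : Zˣ, Near (OT T) Z c (x : Z) → x ^ r ∈ W := by
  have hJ : Nonempty (JT T) := ⟨⟨∅, fun v hv => absurd hv (Finset.notMem_empty v)⟩⟩
  have hp0 : (p : AlgebraicClosure Z) ≠ 0 := Nat.cast_ne_zero.mpr hp.ne_zero
  have hne : NeZero (p : AlgebraicClosure Z) := ⟨hp0⟩
  obtain ⟨ζ, hζ⟩ := HasEnoughRootsOfUnity.exists_primitiveRoot (AlgebraicClosure Z) p
  obtain ⟨q, hq0, hqO, hq⟩ := exists_small_T (Z := Z) hT
  refine atlZ (Ω := AlgebraicClosure Z) hgood hp hζ ?_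
  intro R R' h hRf hRf' _ _ hζR hG hd c hc hc0
  refine ⟨q * (p : Z) ^ 2 * c, ?_, ?_, ?_⟩
  · exact mul_mem (mul_mem hqO (pow_mem (natCast_mem _ p) 2)) hc
  · exact mul_ne_zero (mul_ne_zero hq0 (pow_ne_zero _ (Nat.cast_ne_zero.mpr hp.ne_zero))) hc0
  · let i1 : Algebra R R' := (IntermediateField.inclusion h).toRingHom.toAlgebra
    have i2 : IsScalarTower Z R R' := IsScalarTower.of_algebraMap_eq fun _ => rfl
    have hRq : FiniteDimensional ℚ R := Module.Finite.trans Z R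
    have hRq' : FiniteDimensional ℚ R' := Module.Finite.trans Z R'
    have hN : NumberField R := { to_charZero := inferInstance, to_finiteDimensional := hRq }
    have hN' : NumberField R' := { to_charZero := inferInstance, to_finiteDimensional := hRq' }
    have hG' : IsGalois R R' := hG
    have hd' : finrank R R' = p := hd
    have hζ' : IsPrimitiveRoot (⟨ζ, hζR⟩ : R) p :=
      IsPrimitiveRoot.of_map_of_injective (f := algebraMap R (AlgebraicClosure Z)) hζ
        (algebraMap R (AlgebraicClosure Z)).injective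
    exact tn_nf hT (plT T) (jT_cofinal T) hp hp2 hd' hζ' hq0 hq hc0 hc

/-- (b) in the letters of `ns_of`. -/
theorem hatl_nf' (hb : Odd b) {T : Set (HeightOneSpectrum (𝓞 Z))} (hT : T.Finite) :
    ∀ W : Subgroup Zˣ, (∀ j, GoodFor (OT T) W (Sp (plT T)) j) → ∀ p : ℕ, p.Prime → p ∣ b →
      ∃ c ∈ OT T, c ≠ 0 ∧ ∃ r : ℕ, ¬ p ∣ r ∧ ∀ x : Zˣ, Near (OT T) Z c (x : Z) → x ^ r ∈ W := by
  intro W hW p hp hpb
  refine hatl_nf hT W hW hp ?_
  rintro rfl
  obtain ⟨m, hm⟩ := hb
  omega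

end

/-- (c) The reduced norm. -/
theorem exists_rnN {K D : Type} [Field K] [Infinite K] [DivisionRing D] [Algebra K D]
    [FiniteDimensional K D] [Algebra.IsCentral K D] {n : ℕ} (hdeg : finrank K D = n ^ 2) :
    ∃ N : D →* K, RnN n N ∧ ∀ x, HasNrd K n x (N x) := by
  choose N0 hN0 using fun w : D => exists_hasNrd (K := K) (D := D) hdeg w
  have huniq : ∀ (x : D) (y : K), HasNrd K n x y → N0 x = y := fun x y h =>
    HasNrd.unique hdeg (hN0 x) h
  let N : D →* K :=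
    { toFun := N0
      map_one' := huniq 1 1 (fun Ω _ _ f => by rw [map_one, Matrix.det_one, map_one])
      map_mul' := fun x y => huniq _ _ ((hN0 x).mul (hN0 y)) }
  refine ⟨N, ⟨fun a => huniq _ _ ?_, fun E _ _ φ y hE =>
    huniq _ _ (H505.Wang.hasNrd_norm hdeg hE φ y)⟩, hN0⟩
  intro Ω _ _ f
  rw [AlgHom.commutes]
  change (Matrix.scalar (Fin n) (algebraMap K Ω a)).det = _
  rw [Matrix.scalar_apply, Matrix.det_diagonal, Finset.prod_const, Finset.card_univ,
    Fintype.card_fin, map_pow]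

end Vale.Agent.P011.H380.Good7
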