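import Vale.Agent.P011.H976.Newt

/-!
Two polynomials with small roots, a small multiple of whose difference is a given polynomial.
-/

open Polynomial

set_option linter.unusedSectionVars false

namespace Vale.Agent.P011.H380.Good7

section close

variable {K : Type*} [Field K] {Γ : Type*} [LinearOrderedCommGroupWithZero Γ] {V : Valuation K Γ}

theorem coeff_mul_lt {P Q : K[X]} {δ : Γ} (hδ : δ ≠ 0) (hP : ∀ j, V (P.coeff j) ≤ 1)
    (hQ : ∀ j, V (Q.coeff j) < δ) (j : ℕ) : V ((P * Q).coeff j) < δ := by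
  rw [coeff_mul]
  refine V.map_sum_lt hδ fun x _ => ?_
  rw [map_mul]
  exact (mul_le_of_le_one_left' (hP _)).trans_lt (hQ _)

theorem coeff_mul_le {P Q : K[X]} (hP : ∀ j, V (P.coeff j) ≤ 1)
    (hQ : ∀ j, V (Q.coeff j) ≤ 1) (j : ℕ) : V ((P * Q).coeff j) ≤ 1 := by
  rw [coeff_mul]
  refine V.map_sum_le fun x _ => ?_
  rw [map_mul]
  exact mul_le_one' (hP _) (hQ _)

theorem coeff_lin_le {a : K} (ha : V a ≤ 1) (j : ℕ) : V ((X - C a).coeff j) ≤ 1 := by
  rw [coeff_sub, coeff_X, coeff_C]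
  refine V.map_sub_le ?_ ?_
  · split_ifs
    · rw [map_one]
    · rw [map_zero]; exact zero_le_one
  · split_ifs
    · exact ha
    · rw [map_zero]; exact zero_le_one

theorem coeff_prod_le {ι : Type*} (s : Finset ι) {a : ι → K} (ha : ∀ i, V (a i) ≤ 1) (j : ℕ) :
    V ((∏ i ∈ s, (X - C (a i))).coeff j) ≤ 1 := by
  classical
  induction s using Finset.induction_on generalizing j with
  | empty =>
    rw [Finset.prod_empty, coeff_one]
    split_ifs
    · rw [map_one]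
    · rw [map_zero]; exact zero_le_one
  | insert i s hi ih =>
    rw [Finset.prod_insert hi]
    exact coeff_mul_le (coeff_lin_le (ha i)) ih j

/-- The coefficients of a product depend continuously on the roots. -/
theorem prod_close {ι : Type*} (s : Finset ι) {a b : ι → K} {δ : Γ} (hδ : δ ≠ 0)
    (ha : ∀ i, V (a i) ≤ 1) (hb : ∀ i, V (b i) ≤ 1) (hab : ∀ i, V (a i - b i) < δ) (j : ℕ) :
    V ((∏ i ∈ s, (X - C (a i)) - ∏ i ∈ s, (X - C (b i))).coeff j) < δ := by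
  classical
  induction s using Finset.induction_on generalizing j with
  | empty =>
    rw [Finset.prod_empty, Finset.prod_empty, sub_self, coeff_zero, map_zero]
    exact zero_lt_iff.mpr hδ
  | insert i s hi ih =>
    rw [Finset.prod_insert hi, Finset.prod_insert hi]
    have e1 : (X - C (a i)) * ∏ i ∈ s, (X - C (a i)) - (X - C (b i)) * ∏ i ∈ s, (X - C (b i)) =
        (X - C (a i)) * (∏ i ∈ s, (X - C (a i)) - ∏ i ∈ s, (X - C (b i))) +
          (∏ i ∈ s, (X - C (b i))) * C (b i - a i) := by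
      rw [C_sub]; ring
    rw [e1, coeff_add]
    refine V.map_add_lt (coeff_mul_lt hδ (coeff_lin_le (ha i)) ih j)
      (coeff_mul_lt hδ (coeff_prod_le s hb) (fun j => ?_) j)
    rw [coeff_C]
    split_ifs
    · rw [Valuation.map_sub_swap]; exact hab i
    · rw [map_zero]; exact zero_lt_iff.mpr hδ

end close

section newton

variable {K L : Type*} [Field K] [Field L] {Γ : Type*} [LinearOrderedCommGroupWithZero Γ]
  {V : Valuation K Γ} {w : Valuation L Γ} {ι : K →+* L}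

/-- **Approximation of the roots of a polynomial with Newton slopes.** -/
theorem approx_roots (hw : H976.Newt.Hen w) (hι : ∀ x, w (ι x) = V x)
    (hd : ∀ (x : L) (δ : Γ), δ ≠ 0 → ∃ y : K, w (x - ι y) < δ) {P : K[X]} {n : ℕ}
    (hm : P.Monic) (hn : P.natDegree = n) (h0 : P.coeff 0 ≠ 0)
    (hc : ∀ i, 0 < i → i < n → V (P.coeff (i - 1)) * V (P.coeff (i + 1)) < V (P.coeff i) ^ 2)
    (h1 : ∀ i < n, V (P.coeff i) ≤ V (P.coeff (i + 1))) {δ : Γ} (hδ : δ ≠ 0) :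
    ∃ a : Fin n → K, (∀ i : Fin n, V (a i) * V (P.coeff (i + 1)) = V (P.coeff i)) ∧
      (∀ i, V (a i) ≤ 1) ∧ ∀ j, V ((∏ i, (X - C (a i)) - P).coeff j) < δ := by
  have hco : ∀ i, w ((P.map ι).coeff i) = V (P.coeff i) := fun i => by rw [coeff_map, hι]
  obtain ⟨r, hr, -, hP⟩ := H976.Newt.newt hw (P := P.map ι) (n := n) (hm.map ι)
    (by rw [natDegree_map, hn]) (by
      rw [coeff_map]
      exact (_root_.map_ne_zero ι).mpr h0)
    (fun i hi hin => by rw [hco, hco, hco]; exact hc i hi hin)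
  have hne : ∀ i ≤ n, V (P.coeff i) ≠ 0 := by
    intro i hi
    rcases Nat.eq_zero_or_pos i with h | h
    · rw [h]
      exact (Valuation.ne_zero_iff _).mpr h0
    · rcases hi.eq_or_lt with h' | h'
      · rw [h', ← hn, hm.coeff_natDegree, map_one]
        exact one_ne_zero
      · intro hz
        have := hc i h h'
        rw [hz, zero_pow two_ne_zero] at this
        exact not_lt_zero this
  have hr' : ∀ i : Fin n, w (r i) * V (P.coeff (i + 1)) = V (P.coeff i) := fun i => by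
    rw [← hco, ← hco]; exact hr i
  have hr0 : ∀ i : Fin n, w (r i) ≠ 0 := by
    intro i hz
    have := hr' i
    rw [hz, zero_mul] at this
    exact hne i i.2.le this.symm
  choose a ha using fun i : Fin n => hd (r i) (min δ (w (r i)))
    (by rcases min_choice δ (w (r i)) with h | h <;> rw [h]
        · exact hδ
        · exact hr0 i)
  have hval : ∀ i, V (a i) = w (r i) := by
    intro i
    rw [← hι]
    exact Valuation.map_eq_of_sub_lt w (by
      rw [Valuation.map_sub_swap]; exact (ha i).trans_le (min_le_right _ _))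
  have hle : ∀ i, w (r i) ≤ 1 := by
    intro i
    have h2 := h1 i i.2
    rw [← hr' i] at h2
    have h3 : 0 < V (P.coeff (i + 1)) := zero_lt_iff.mpr (hne _ i.2)
    by_contra hcon
    rw [not_le] at hcon
    have h4 := mul_lt_mul_of_pos_right hcon h3
    rw [one_mul] at h4
    exact absurd h4 (not_lt.mpr h2)
  refine ⟨a, fun i => by rw [hval]; exact hr' i, fun i => by rw [hval]; exact hle i, fun j => ?_⟩
  have e1 : V ((∏ i, (X - C (a i)) - P).coeff j) =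
      w ((∏ i, (X - C (ι (a i))) - ∏ i, (X - C (r i))).coeff j) := by
    rw [← hι, ← coeff_map, Polynomial.map_sub, hP, Polynomial.map_prod]
    simp only [Polynomial.map_sub, map_X, map_C]
  rw [e1]
  refine prod_close (V := w) _ hδ (fun i => ?_) hle (fun i => ?_) j
  · rw [hι, hval]; exact hle i
  · rw [Valuation.map_sub_swap]
    exact (ha i).trans_le (min_le_left _ _)

/-- The exponents of the coefficients. -/
def ex (m n i : ℕ) : ℕ := m * (n - i) + (n - i).choose 2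

theorem ex_self (m n : ℕ) : ex m n n = 0 := by
  simp [ex]

theorem ex_succ {m n i : ℕ} (hi : i < n) : ex m n i = ex m n (i + 1) + (m + (n - 1 - i)) := by
  obtain ⟨j, rfl⟩ : ∃ j, n = i + 1 + j := ⟨n - (i + 1), by omega⟩
  have h1 : i + 1 + j - i = j + 1 := by omega
  have h2 : i + 1 + j - (i + 1) = j := by omega
  have h3 : i + 1 + j - 1 - i = j := by omega
  rw [ex, ex, h1, h2, h3, Nat.choose_succ_succ' j 1, Nat.choose_one_right]
  ring

theorem ex_le {m n i : ℕ} (hi : i ≤ n) : ex m n i ≤ ex m n 0 := by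
  unfold ex
  have h1 : n - i ≤ n - 0 := by omega
  exact Nat.add_le_add (Nat.mul_le_mul_left m h1) (Nat.choose_le_choose 2 h1)

/-- The polynomial with the given slopes. -/
noncomputable def pol (π : K) (m n : ℕ) : K[X] :=
  ∑ i ∈ Finset.range (n + 1), C (π ^ ex m n i) * X ^ i

theorem coeff_pol (π : K) (m n j : ℕ) :
    (pol π m n).coeff j = if j ≤ n then π ^ ex m n j else 0 := by
  rw [pol, finsetSum_coeff]
  simp only [coeff_C_mul, coeff_X_pow]
  by_cases hj : j ≤ n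
  · rw [if_pos hj, Finset.sum_eq_single j]
    · rw [if_pos rfl, mul_one]
    · intro b _ hb
      rw [if_neg (Ne.symm hb), mul_zero]
    · intro h
      exact absurd (Finset.mem_range.mpr (by omega)) h
  · rw [if_neg hj]
    refine Finset.sum_eq_zero fun i hi => ?_
    rw [if_neg (by
      have := Finset.mem_range.mp hi
      omega), mul_zero]

theorem monic_of_coeff {P : K[X]} {n : ℕ} (h1 : P.coeff n = 1) (h2 : ∀ j, n < j → P.coeff j = 0) :
    P.Monic ∧ P.natDegree = n := by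
  have h3 : P.natDegree ≤ n := natDegree_le_iff_coeff_eq_zero.mpr h2
  have h4 : P.natDegree = n := by
    refine le_antisymm h3 (le_natDegree_of_ne_zero ?_)
    rw [h1]; exact one_ne_zero
  exact ⟨by rw [Monic, leadingCoeff, h4, h1], h4⟩

theorem roots_pol (hw : H976.Newt.Hen w) (hι : ∀ x, w (ι x) = V x)
    (hd : ∀ (x : L) (δ : Γ), δ ≠ 0 → ∃ y : K, w (x - ι y) < δ) {π : K} (hπ0 : π ≠ 0)
    (hπ1 : V π < 1) {m n : ℕ} {P : K[X]} (hPn : P.coeff n = 1) (hP0 : ∀ j, n < j → P.coeff j = 0)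
    (hP : ∀ i ≤ n, V (P.coeff i) = V π ^ ex m n i) {δ : Γ} (hδ : δ ≠ 0) :
    ∃ a : Fin n → K, (∀ i : Fin n, V (a i) = V π ^ (m + (n - 1 - i))) ∧
      ∀ j, V ((∏ i, (X - C (a i)) - P).coeff j) < δ := by
  obtain ⟨hm, hn⟩ := monic_of_coeff hPn hP0
  have hVπ : 0 < V π := zero_lt_iff.mpr ((Valuation.ne_zero_iff _).mpr hπ0)
  have hanti : ∀ {x y : ℕ}, x < y → V π ^ y < V π ^ x := fun h =>
    pow_lt_pow_right_of_lt_one₀ hVπ hπ1 h
  obtain ⟨a, ha, -, hcl⟩ := approx_roots hw hι hd hm hn (by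
      rw [← Valuation.ne_zero_iff V, hP 0 (Nat.zero_le _)]
      exact pow_ne_zero _ hVπ.ne') (fun i hi hin => by
      rw [hP _ (by omega), hP _ (by omega), hP _ (by omega), ← pow_add, ← pow_mul]
      apply hanti
      have h1 := ex_succ (m := m) (n := n) (i := i - 1) (by omega)
      have h2 := ex_succ (m := m) (n := n) (i := i) hin
      have h3 : i - 1 + 1 = i := by omega
      rw [h3] at h1
      omega) (fun i hi => by
      rw [hP _ (by omega), hP _ (by omega), ex_succ hi]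
      exact pow_le_pow_right_of_le_one' hπ1.le (Nat.le_add_right _ _)) hδ
  refine ⟨a, fun i => ?_, hcl⟩
  have h1 := ha i
  rw [hP _ i.2, hP _ i.2.le, ex_succ i.2, pow_add, mul_comm] at h1
  exact mul_left_cancel₀ (pow_ne_zero _ hVπ.ne') h1

/-- **The local data.** -/
theorem local_good (hw : H976.Newt.Hen w) (hι : ∀ x, w (ι x) = V x)
    (hd : ∀ (x : L) (δ : Γ), δ ≠ 0 → ∃ y : K, w (x - ι y) < δ)
    (hsm : ∀ γ : Γ, γ ≠ 0 → ∃ t : K, t ≠ 0 ∧ V t < γ) {π : K} (hπ0 : π ≠ 0)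
    (hπ1 : V π < 1) {m n : ℕ} {Q : K[X]} (hQm : Q.Monic) (hQn : Q.natDegree = n)
    {γ : Γ} (hγ : γ ≠ 0) (e : Equiv.Perm (Fin n)) :
    ∃ (a b : Fin n → K) (θ : K) (δ : Γ), δ ≠ 0 ∧ θ ≠ 0 ∧ V θ < 1 ∧ V θ < γ ∧
      (∀ i : Fin n, V (a i) = V π ^ (m + (n - 1 - i))) ∧
      (∀ i : Fin n, V (b i) = V π ^ (m + (n - 1 - i))) ∧
      ∀ (κ κ' : Fin n → K) (κ₀ κ₀' : K), (∀ i, V (κ i - a i) < δ) →
        (∀ i, V (κ' i - b (e i)) < δ) → V (κ₀ - (1 - θ)) < δ → V (κ₀' - (1 + θ)) < δ →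
        (∀ i, V (κ i) = V (a i)) ∧ (∀ i, V (κ' i) = V (b (e i))) ∧ V (1 - κ₀) = V θ ∧
          V (1 - κ₀') = V θ ∧ κ₀ * κ₀' ≠ 1 ∧
        (∀ j, V ((C (1 - κ₀)⁻¹ * (∏ i, (X - C (κ' i)) - C κ₀ * ∏ i, (X - C (κ i))) - Q).coeff j)
          < γ) ∧
        ∀ j, V ((C (1 - κ₀')⁻¹ * (∏ i, (X - C (κ i)) - C κ₀' * ∏ i, (X - C (κ' i))) - Q).coeff j)
          < γ := by
  have hVπ : 0 < V π := zero_lt_iff.mpr ((Valuation.ne_zero_iff _).mpr hπ0)
  have hVπ1 : ∀ j, V (π ^ j) ≤ 1 := fun j => by rw [map_pow]; exact pow_le_one' hπ1.le j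
  -- a bound for the coefficients
  obtain ⟨M, hM1, hM⟩ : ∃ M : Γ, 1 ≤ M ∧ ∀ i, V (Q.coeff i) ≤ M := by
    obtain ⟨M, hM⟩ := Finset.exists_le
      (insert 1 ((Finset.range (n + 1)).image fun i => V (Q.coeff i)))
    refine ⟨M, hM 1 (Finset.mem_insert_self _ _), fun i => ?_⟩
    by_cases hi : i ≤ n
    · exact hM _ (Finset.mem_insert_of_mem (Finset.mem_image.mpr
        ⟨i, Finset.mem_range.mpr (by omega), rfl⟩))
    · rw [coeff_eq_zero_of_natDegree_lt (by omega), map_zero]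
      exact zero_le
  have hM0 : 0 < M := zero_lt_one.trans_le hM1
  -- the small parameter
  have hpp : V π ^ ex m n 0 ≠ 0 := pow_ne_zero _ hVπ.ne'
  obtain ⟨θ, hθ0, hθ⟩ := hsm (min (min (V π ^ ex m n 0 * M⁻¹) (γ * M⁻¹)) 1) (by
    rcases min_choice (min (V π ^ ex m n 0 * M⁻¹) (γ * M⁻¹)) 1 with h | h <;> rw [h]
    · rcases min_choice (V π ^ ex m n 0 * M⁻¹) (γ * M⁻¹) with h | h <;> rw [h]
      · exact mul_ne_zero hpp (inv_ne_zero hM0.ne')
      · exact mul_ne_zero hγ (inv_ne_zero hM0.ne')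
    · exact one_ne_zero)
  obtain ⟨hθ12, hθ3⟩ := lt_min_iff.mp hθ
  obtain ⟨hθ1, hθ2⟩ := lt_min_iff.mp hθ12
  rw [lt_mul_inv_iff₀ hM0] at hθ1 hθ2
  have hVθ : 0 < V θ := zero_lt_iff.mpr ((Valuation.ne_zero_iff _).mpr hθ0)
  -- the precision
  obtain ⟨δ, hδ, hδ1, hδ2, hδ3⟩ : ∃ δ : Γ, δ ≠ 0 ∧ δ ≤ V θ ^ 2 ∧ δ * M ≤ V θ * γ ∧
      δ ≤ V π ^ (m + n) := by
    refine ⟨min (min (V θ ^ 2) (V θ * γ * M⁻¹)) (V π ^ (m + n)), ?_, ?_, ?_, ?_⟩
    · rcases min_choice (min (V θ ^ 2) (V θ * γ * M⁻¹)) (V π ^ (m + n)) with h | h <;> rw [h]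
      · rcases min_choice (V θ ^ 2) (V θ * γ * M⁻¹) with h | h <;> rw [h]
        · exact pow_ne_zero _ hVθ.ne'
        · exact mul_ne_zero (mul_ne_zero hVθ.ne' hγ) (inv_ne_zero hM0.ne')
      · exact pow_ne_zero _ hVπ.ne'
    · exact (min_le_left _ _).trans (min_le_left _ _)
    · rw [← le_mul_inv_iff₀ hM0]
      exact (min_le_left _ _).trans (min_le_right _ _)
    · exact min_le_right _ _
  have hδθ : δ ≤ V θ := hδ1.trans (by
    rw [sq]
    exact (mul_le_of_le_one_right' hθ3.le))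
  have hδM : δ ≤ δ * M := le_mul_of_one_le_right' hM1
  -- the two polynomials
  obtain ⟨P₁, hP₁⟩ : ∃ P₁, P₁ = pol π m n := ⟨_, rfl⟩
  obtain ⟨P₂, hP₂⟩ : ∃ P₂, P₂ = P₁ + C θ * (Q - P₁) := ⟨_, rfl⟩
  have hQ1 : Q.coeff n = 1 := by rw [← hQn]; exact hQm.coeff_natDegree
  have hP₁c : ∀ j ≤ n, P₁.coeff j = π ^ ex m n j := fun j hj => by
    rw [hP₁, coeff_pol, if_pos hj]
  have hP₁0 : ∀ j, n < j → P₁.coeff j = 0 := fun j hj => by
    rw [hP₁, coeff_pol, if_neg (by omega)]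
  have hP₁n : P₁.coeff n = 1 := by rw [hP₁c n le_rfl, ex_self, pow_zero]
  have hP₁le : ∀ j, V (P₁.coeff j) ≤ 1 := fun j => by
    by_cases hj : j ≤ n
    · rw [hP₁c j hj]; exact hVπ1 _
    · rw [hP₁0 j (by omega), map_zero]; exact zero_le
  have hQP : ∀ j, V ((Q - P₁).coeff j) ≤ M := fun j => by
    rw [coeff_sub]
    exact V.map_sub_le (hM j) ((hP₁le j).trans hM1)
  have hP₂c : ∀ j, P₂.coeff j = P₁.coeff j + θ * (Q - P₁).coeff j := fun j => by
    rw [hP₂, coeff_add, coeff_C_mul]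
  have hP₂n : P₂.coeff n = 1 := by rw [hP₂c, coeff_sub, hP₁n, hQ1, sub_self, mul_zero, add_zero]
  have hP₂0 : ∀ j, n < j → P₂.coeff j = 0 := fun j hj => by
    rw [hP₂c, coeff_sub, hP₁0 j hj, coeff_eq_zero_of_natDegree_lt (by omega), sub_self, mul_zero,
      add_zero]
  have hP₂v : ∀ i ≤ n, V (P₂.coeff i) = V π ^ ex m n i := by
    intro i hi
    have h1 : V (P₁.coeff i) = V π ^ ex m n i := by rw [hP₁c i hi, map_pow]
    rw [hP₂c, ← h1]
    refine Valuation.map_add_eq_of_lt_left V ?_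
    rw [h1, map_mul]
    calc V θ * V ((Q - P₁).coeff i) ≤ V θ * M := mul_le_mul_right (hQP i) _
      _ < V π ^ ex m n 0 := hθ1
      _ ≤ V π ^ ex m n i := pow_le_pow_right_of_le_one' hπ1.le (ex_le hi)
  obtain ⟨a, ha, hac⟩ := roots_pol hw hι hd hπ0 hπ1 (P := P₁) hP₁n hP₁0
    (fun i hi => by rw [hP₁c i hi, map_pow]) hδ
  obtain ⟨b, hb, hbc⟩ := roots_pol hw hι hd hπ0 hπ1 (P := P₂) hP₂n hP₂0 hP₂v hδ
  refine ⟨a, b, θ, δ, hδ, hθ0, hθ3, (le_mul_of_one_le_right' hM1).trans_lt hθ2, ha, hb, ?_⟩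
  intro κ κ' κ₀ κ₀' h1 h2 h3 h4
  have hlt : ∀ i : Fin n, V π ^ (m + n) < V π ^ (m + (n - 1 - i)) := fun i =>
    pow_lt_pow_right_of_lt_one₀ hVπ hπ1 (by omega)
  have ha1 : ∀ i, V (a i) ≤ 1 := fun i => by rw [ha]; exact pow_le_one' hπ1.le _
  have hb1 : ∀ i, V (b i) ≤ 1 := fun i => by rw [hb]; exact pow_le_one' hπ1.le _
  have hκ : ∀ i, V (κ i) = V (a i) := fun i => Valuation.map_eq_of_sub_lt V (by
    rw [ha]
    exact ((h1 i).trans_le hδ3).trans (hlt i))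
  have hκ' : ∀ i, V (κ' i) = V (b (e i)) := fun i => Valuation.map_eq_of_sub_lt V (by
    rw [hb]
    exact ((h2 i).trans_le hδ3).trans (hlt _))
  have hκ1 : ∀ i, V (κ i) ≤ 1 := fun i => by rw [hκ]; exact ha1 i
  have hκ'1 : ∀ i, V (κ' i) ≤ 1 := fun i => by rw [hκ']; exact hb1 _
  have hθm : V (1 - θ) ≤ 1 := V.map_sub_le (by rw [map_one]) hθ3.le
  have hθp : V (1 + θ) ≤ 1 := V.map_add_le (by rw [map_one]) hθ3.le
  have hδ1' : δ ≤ 1 := hδθ.trans hθ3.le
  have hκ₀ : V κ₀ ≤ 1 := by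
    have e1 : κ₀ = (κ₀ - (1 - θ)) + (1 - θ) := by ring
    rw [e1]
    exact V.map_add_le (h3.le.trans hδ1') hθm
  have hκ₀' : V κ₀' ≤ 1 := by
    have e1 : κ₀' = (κ₀' - (1 + θ)) + (1 + θ) := by ring
    rw [e1]
    exact V.map_add_le (h4.le.trans hδ1') hθp
  have hc1 : V (1 - κ₀) = V θ := Valuation.map_eq_of_sub_lt V (by
    have e1 : 1 - κ₀ - θ = -(κ₀ - (1 - θ)) := by ring
    rw [e1, Valuation.map_neg]
    exact h3.trans_le hδθ)
  have hc2 : V (1 - κ₀') = V θ := by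
    rw [← Valuation.map_neg V θ]
    refine Valuation.map_eq_of_sub_lt V ?_
    have e1 : 1 - κ₀' - -θ = -(κ₀' - (1 + θ)) := by ring
    rw [e1, Valuation.map_neg, Valuation.map_neg]
    exact h4.trans_le hδθ
  refine ⟨hκ, hκ', hc1, hc2, ?_, ?_, ?_⟩
  · intro hk
    have e1 : θ ^ 2 = (κ₀ - (1 - θ)) * κ₀' + (κ₀' - (1 + θ)) * (1 - θ) := by
      linear_combination -hk
    have h5 : V (θ ^ 2) < δ := by
      rw [e1]
      refine V.map_add_lt ?_ ?_
      · rw [map_mul]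
        exact (mul_le_of_le_one_right' hκ₀').trans_lt h3
      · rw [map_mul]
        exact (mul_le_of_le_one_right' hθm).trans_lt h4
    rw [map_pow] at h5
    exact absurd (h5.trans_le hδ1) (lt_irrefl _)
  all_goals
    have hA : ∀ j, V ((∏ i, (X - C (κ i)) - P₁).coeff j) < δ := by
      intro j
      have e1 : ∏ i, (X - C (κ i)) - P₁ = (∏ i, (X - C (κ i)) - ∏ i, (X - C (a i))) +
          (∏ i, (X - C (a i)) - P₁) := by ring
      rw [e1, coeff_add]
      exact V.map_add_lt (prod_close _ hδ hκ1 ha1 h1 j) (hac j)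
    have hB : ∀ j, V ((∏ i, (X - C (κ' i)) - P₂).coeff j) < δ := by
      intro j
      have e1 : ∏ i, (X - C (κ' i)) - P₂ = (∏ i, (X - C (κ' i)) - ∏ i, (X - C (b (e i)))) +
          (∏ i, (X - C (b i)) - P₂) := by
        rw [Equiv.prod_comp e fun i => (X - C (b i))]
        ring
      rw [e1, coeff_add]
      exact V.map_add_lt (prod_close _ hδ hκ'1 (fun i => hb1 _) h2 j) (hbc j)
    obtain ⟨A, hAe⟩ : ∃ A, A = ∏ i, (X - C (κ i)) := ⟨_, rfl⟩
    obtain ⟨B, hBe⟩ : ∃ B, B = ∏ i, (X - C (κ' i)) := ⟨_, rfl⟩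
    rw [← hAe] at hA
    rw [← hBe] at hB
    rw [← hAe, ← hBe]
    have hmain : ∀ (E : K[X]) (c : K), V c = V θ → (∀ j, V (E.coeff j) < V θ * γ) →
        ∀ j, V ((C c⁻¹ * E).coeff j) < γ := by
      intro E c hc hE j
      rw [coeff_C_mul, map_mul, map_inv₀, hc, inv_mul_lt_iff₀ hVθ]
      exact hE j
    have hδγ : δ ≤ V θ * γ := hδM.trans hδ2
  · have hne : (1 - κ₀) ≠ 0 := by
      rw [← Valuation.ne_zero_iff V, hc1]; exact hVθ.ne'
    have e1 : C (1 - κ₀)⁻¹ * (B - C κ₀ * A) - Q =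
        C (1 - κ₀)⁻¹ * ((B - P₂) - C κ₀ * (A - P₁) + C ((1 - θ) - κ₀) * P₁ +
          C (κ₀ - (1 - θ)) * Q) := by
      have e2 : Q = C (1 - κ₀)⁻¹ * (C (1 - κ₀) * Q) := by
        rw [← mul_assoc, ← C_mul, inv_mul_cancel₀ hne, C_1, one_mul]
      conv_lhs => rw [e2, ← mul_sub]
      congr 1
      rw [hP₂]
      simp only [C_sub, C_1]
      ring
    rw [e1]
    refine hmain _ _ hc1 fun j => ?_
    rw [coeff_add, coeff_add, coeff_sub, coeff_C_mul, coeff_C_mul, coeff_C_mul]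
    refine V.map_add_lt (V.map_add_lt (V.map_sub_lt ?_ ?_) ?_) ?_
    · exact (hB j).trans_le hδγ
    · rw [map_mul]
      exact ((mul_le_of_le_one_left' hκ₀).trans_lt (hA j)).trans_le hδγ
    · rw [map_mul, Valuation.map_sub_swap]
      exact ((mul_le_of_le_one_right' (hP₁le j)).trans_lt h3).trans_le hδγ
    · rw [map_mul]
      calc V (κ₀ - (1 - θ)) * V (Q.coeff j) ≤ V (κ₀ - (1 - θ)) * M := mul_le_mul_right (hM j) _
        _ < δ * M := mul_lt_mul_of_pos_right h3 hM0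
        _ ≤ V θ * γ := hδ2
  · have hne : (1 - κ₀') ≠ 0 := by
      rw [← Valuation.ne_zero_iff V, hc2]; exact hVθ.ne'
    have e1 : C (1 - κ₀')⁻¹ * (A - C κ₀' * B) - Q =
        C (1 - κ₀')⁻¹ * ((A - P₁) - C κ₀' * (B - P₂) +
          C ((κ₀' - (1 + θ)) - θ * (κ₀' - 1)) * (Q - P₁)) := by
      have e2 : Q = C (1 - κ₀')⁻¹ * (C (1 - κ₀') * Q) := by
        rw [← mul_assoc, ← C_mul, inv_mul_cancel₀ hne, C_1, one_mul]
      conv_lhs => rw [e2, ← mul_sub]
      congr 1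
      rw [hP₂]
      simp only [C_sub, C_1, C_add, C_mul]
      ring
    rw [e1]
    refine hmain _ _ hc2 fun j => ?_
    rw [coeff_add, coeff_sub, coeff_C_mul, coeff_C_mul]
    refine V.map_add_lt (V.map_sub_lt ?_ ?_) ?_
    · exact (hA j).trans_le hδγ
    · rw [map_mul]
      exact ((mul_le_of_le_one_left' hκ₀').trans_lt (hB j)).trans_le hδγ
    · rw [map_mul]
      have h5 : V ((κ₀' - (1 + θ)) - θ * (κ₀' - 1)) ≤ V θ ^ 2 := by
        refine V.map_sub_le (h4.le.trans hδ1) ?_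
        rw [map_mul, Valuation.map_sub_swap, hc2, sq]
      calc _ ≤ V θ ^ 2 * M := mul_le_mul' h5 (hQP j)
        _ = V θ * (V θ * M) := by rw [sq, mul_assoc]
        _ < V θ * γ := mul_lt_mul_of_pos_left hθ2 hVθ

end newton

end Vale.Agent.P011.H380.Good7
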