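import Vale.Agent.P011.Pow.RamSplit
import Vale.Agent.P011.Pow.NS
import Vale.Agent.P011.Pow.Av

/-!
Weak approximation of an element and of its conjugate at split places.
-/

open NumberField IsDedekindDomain Polynomial Module

set_option linter.unusedSectionVars false

namespace Vale.Agent.P011.H380.Good7

open Vale.Agent.P011.W Vale.Agent.P011.Arith Vale.Agent.P011.Even Vale.Agent.P011.Pow

variable {k K D : Type} [Field k] [NumberField k] [Field K] [NumberField K] [StarRing K]
  [DivisionRing D] [StarRing D] [Algebra k K] [Algebra k D] [Algebra K D] [IsScalarTower k K D]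
  {d : kˣ} {s : K}

/-- Two places above every split place. -/
theorem exists_two (hS : Setting k K D d s) (v : HeightOneSpectrum (𝓞 k)) :
    ∃ w w' : HeightOneSpectrum (𝓞 K), Ab w v ∧ Ab w' v ∧
      (∀ z, w'.valuation K (star z) = w.valuation K z) ∧
      (∀ z, w'.valuation K z = w.valuation K (star z)) ∧
      (d ∈ LS (v.valuation k) → w' ≠ w) ∧ ∀ u, Ab u v → u = w ∨ u = w' := by
  obtain ⟨σ, hσ⟩ := exists_starAut hS
  obtain ⟨w, hw⟩ := Arith.exists_above (E := K) v
  obtain ⟨w', hw', hab⟩ := Arith.exists_conj σ w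
  have hσs : σ s = -s := by rw [hσ, hS.star_s]
  have h1 : ∀ z, w'.valuation K (star z) = w.valuation K z := fun z => by rw [← hσ]; exact hw' z
  have h2 : ∀ z, w'.valuation K z = w.valuation K (star z) := fun z => by
    rw [← h1, star_star]
  refine ⟨w, w', hw, (hab v).mp hw, h1, h2, fun hd => ?_, fun u hu => ?_⟩
  · exact (split_iff hS.rank hS.ns hS.sq hσs hw hw').mp hd
  · rcases conj_transitive hS.rank hS.ns hS.sq hσs hw hu with h | h
    · exact Or.inl h
    · right
      apply HeightOneSpectrum.ext
      ext x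
      have h3 : ∀ z : K, u.valuation K z = w'.valuation K z := fun z => by
        have h4 := h (σ.symm z)
        have h5 := hw' (σ.symm z)
        rw [σ.apply_symm_apply] at h4 h5
        rw [h4, h5]
      rw [← HeightOneSpectrum.valuation_lt_one_iff_mem (K := K),
        ← HeightOneSpectrum.valuation_lt_one_iff_mem (K := K), h3]

/-- **Weak approximation.** -/
theorem weak2 {S : Set (HeightOneSpectrum (𝓞 k))} (hSf : S.Finite)
    {w w' : HeightOneSpectrum (𝓞 k) → HeightOneSpectrum (𝓞 K)} (hw : ∀ v, Ab (w v) v)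
    (hw' : ∀ v, Ab (w' v) v) (hs : ∀ v z, (w' v).valuation K (star z) = (w v).valuation K z)
    (hne : ∀ v ∈ S, w' v ≠ w v) (α β : HeightOneSpectrum (𝓞 k) → K)
    (δ : HeightOneSpectrum (𝓞 k) → Z0) (hδ : ∀ v, δ v ≠ 0) :
    ∃ x : K, ∀ v ∈ S, (w v).valuation K (x - α v) < δ v ∧
      (w v).valuation K (star x - β v) < δ v := by
  classical
  choose t ht0 ht using fun v => Pow.exists_small (w v) (hδ v)
  choose b hb using fun u : HeightOneSpectrum (𝓞 K) => Arith.exists_below (F := k) u
  have hbw : ∀ v, b (w v) = v := fun v => below_unique (hb (w v)) (hw v)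
  have hbw' : ∀ v, b (w' v) = v := fun v => below_unique (hb (w' v)) (hw' v)
  let T : Set (Pl K) := Sum.inl '' (w '' S ∪ w' '' S)
  have hT : T.Finite := ((hSf.image _).union (hSf.image _)).image _
  let z : Pl K → K := fun q => match q with
    | .inl u => if u = w (b u) then α (b u) else star (β (b u))
    | .inr _ => 0
  let η : Pl K → ℝ := fun q => match q with
    | .inl u => if u = w (b u) then plAbv (.inl u) (t (b u)) else plAbv (.inl u) (star (t (b u)))
    | .inr _ => 1
  have hη : ∀ q, 0 < η q := by
    rintro (u | φ)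
    · change 0 < if u = w (b u) then plAbv (.inl u) (t (b u)) else plAbv (.inl u) (star (t (b u)))
      split_ifs
      · exact (plAbv (.inl u)).pos (ht0 _)
      · exact (plAbv (.inl u)).pos (star_ne_zero.mpr (ht0 _))
    · exact one_pos
  obtain ⟨x, hx⟩ := approx T hT z η hη
  refine ⟨x, fun v hv => ⟨?_, ?_⟩⟩
  · have h1 := hx (.inl (w v)) ⟨w v, Or.inl ⟨v, hv, rfl⟩, rfl⟩
    have e1 : z (.inl (w v)) = α v := by
      change (if w v = w (b (w v)) then α (b (w v)) else star (β (b (w v)))) = α v
      rw [hbw, if_pos rfl]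
    have e2 : η (.inl (w v)) = plAbv (.inl (w v)) (t v) := by
      change (if w v = w (b (w v)) then plAbv (.inl (w v)) (t (b (w v))) else _) = _
      rw [hbw, if_pos rfl]
    rw [e1, e2, plAbv_lt] at h1
    exact h1.trans (ht v)
  · have h1 := hx (.inl (w' v)) ⟨w' v, Or.inr ⟨v, hv, rfl⟩, rfl⟩
    have e1 : z (.inl (w' v)) = star (β v) := by
      change (if w' v = w (b (w' v)) then α (b (w' v)) else star (β (b (w' v)))) = star (β v)
      rw [hbw', if_neg (hne v hv)]
    have e2 : η (.inl (w' v)) = plAbv (.inl (w' v)) (star (t v)) := by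
      change (if w' v = w (b (w' v)) then _ else plAbv (.inl (w' v)) (star (t (b (w' v))))) = _
      rw [hbw', if_neg (hne v hv)]
    have e3 : x - star (β v) = star (star x - β v) := by rw [star_sub, star_star]
    rw [e1, e2, plAbv_lt, e3, hs, hs] at h1
    exact h1.trans (ht v)

end Vale.Agent.P011.H380.Good7
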