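import Vale.Agent.P011.H380.Good7.Twist
import Vale.Agent.P011.H380.Good7.Loc
import Vale.Agent.P011.H380.Good7.Weak

/-!
**Good elements of a division algebra over a number field.**  `ρ` is an element close to one at
given split places with `∏ (ρ - star κ i) = κ₀ ∏ (ρ - κ i)`, where the `κ i` are small at these
places, comparable with their conjugates and with the differences, and `κ₀ * star κ₀ ≠ 1`.
-/

open NumberField IsDedekindDomain Polynomial Module

set_option linter.unusedSectionVars false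

namespace Vale.Agent.P011.H380.Good7

open Vale.Agent.P011.W Vale.Agent.P011.Arith Vale.Agent.P011.Even Vale.Agent.P011.Pow

section target

variable {K D : Type} [Field K] [NumberField K] [StarRing K] [DivisionRing D] [StarRing D]
  [Algebra K D] [FiniteDimensional K D] [Algebra.IsCentral K D] {n : ℕ}

/-- the splitting condition at a place -/
def TGT (K D : Type) [Field K] [NumberField K] [DivisionRing D] [Algebra K D] (n : ℕ)
    (w : HeightOneSpectrum (𝓞 K)) (γ : Z0) (f : K[X]) : Prop :=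
  (∀ (L : Type) [Field L] [NumberField L] [Algebra K L] (W : HeightOneSpectrum (𝓞 L)),
    W.asIdeal.comap (algebraMap (𝓞 K) (𝓞 L)) = w.asIdeal →
    ∀ ξ : L, aeval ξ f = 0 → Spl D n (pl (F := K) L W)) ∧ w.valuation K (f.eval 1) < γ

/-- The target polynomial at a place and at the conjugate place. -/
theorem exists_target2 (hst : ∀ c : K, star (algebraMap K D c) = algebraMap K D (star c))
    (hn : n ≠ 0) (hdeg : finrank K D = n ^ 2)
    {w w' : HeightOneSpectrum (𝓞 K)} (hw : ∀ z, w'.valuation K (star z) = w.valuation K z)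
    {γ : Z0} (hγ : γ ≠ 0) :
    ∃ (Q : K[X]) (γ' : Z0), Q.Monic ∧ Q.natDegree = n ∧ γ' ≠ 0 ∧
      ∀ f : K[X], f.Monic → f.natDegree = n →
        ((∀ i, w.valuation K ((f - Q).coeff i) < γ') → TGT K D n w γ f) ∧
        ((∀ i, w.valuation K ((f.map (starRingEnd K) - Q).coeff i) < γ') → TGT K D n w' γ f) := by
  obtain ⟨δ, hδ, h1⟩ := exists_target_near (D := D) hn hdeg w hγ
  obtain ⟨Q, g, hg0, -, h2, h3⟩ := h1 1 (by rw [sub_self, map_zero]; exact zero_lt_iff.mpr hδ)
  obtain ⟨Q', hQ'⟩ : ∃ Q' : K[X], Q' = X ^ n + ∑ i ∈ Finset.range n, C (Q.coeff i) * X ^ i :=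
    ⟨_, rfl⟩
  have hc : ∀ i, i < n → Q'.coeff i = Q.coeff i := by
    intro i hi
    rw [hQ', coeff_add, coeff_X_pow, if_neg hi.ne, zero_add, finsetSum_coeff,
      Finset.sum_eq_single i]
    · rw [coeff_C_mul, coeff_X_pow, if_pos rfl, mul_one]
    · intro j _ hj
      rw [coeff_C_mul, coeff_X_pow, if_neg (Ne.symm hj), mul_zero]
    · intro h
      exact absurd (Finset.mem_range.mpr hi) h
  have hc' : ∀ i, n ≤ i → Q'.coeff i = if i = n then 1 else 0 := by
    intro i hi
    rw [hQ', coeff_add, coeff_X_pow, finsetSum_coeff, Finset.sum_eq_zero, add_zero]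
    intro j hj
    rw [coeff_C_mul, coeff_X_pow, if_neg (by
      have := Finset.mem_range.mp hj
      omega), mul_zero]
  obtain ⟨hm, hd⟩ := monic_of_coeff (P := Q') (n := n) (by rw [hc' n le_rfl, if_pos rfl])
    (fun j hj => by rw [hc' j hj.le, if_neg hj.ne'])
  have key : ∀ f : K[X], f.Monic → f.natDegree = n →
      (∀ i, w.valuation K ((f - Q').coeff i) < w.valuation K g) → TGT K D n w γ f := by
    intro f hf hfd hcl
    have h4 : ∀ i, i < n → w.valuation K (f.coeff i - Q.coeff i) < w.valuation K g := by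
      intro i hi
      have := hcl i
      rwa [coeff_sub, hc i hi] at this
    exact ⟨h2 f hf hfd h4, h3 f hf hfd h4⟩
  refine ⟨Q', w.valuation K g, hm, hd, (Valuation.ne_zero_iff _).mpr hg0, fun f hf hfd =>
    ⟨key f hf hfd, fun hcl => ?_⟩⟩
  obtain ⟨h5, h6⟩ := key _ (hf.map _) (by rw [natDegree_map, hfd]) hcl
  refine ⟨fun L _ _ _ W hW ξ hξ => target_conj hst hw h5 L W hW ξ hξ, ?_⟩
  have h7 : (f.map (starRingEnd K)).eval 1 = star (f.eval 1) := by
    have := eval_map_apply (p := f) (f := starRingEnd K) (x := 1)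
    rwa [map_one, starRingEnd_apply] at this
  have h8 : w'.valuation K (f.eval 1) = w.valuation K (star (f.eval 1)) := by
    rw [← hw, star_star]
  rw [h8, ← h7]
  exact h6

end target

section main

variable {k K D : Type} [Field k] [NumberField k] [Field K] [NumberField K] [StarRing K]
  [DivisionRing D] [StarRing D] [Algebra k K] [Algebra k D] [Algebra K D] [IsScalarTower k K D]
  {d : kˣ} {s : K} {n : ℕ}

/-- the polynomial `∏ (X - κ i)` -/
noncomputable def pp (κ : Fin n → K) : K[X] := ∏ i, (X - C (κ i))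

/-- The properties of the good elements at a place. -/
def NearG (K : Type) {D : Type} [Field K] [NumberField K] [StarRing K] [DivisionRing D]
    [StarRing D] [Algebra K D] {n : ℕ} (w : HeightOneSpectrum (𝓞 K)) (c₀ ε : ℝ) (ρ : D)
    (κ : Fin n → K) (κ₀ : K) : Prop :=
  (∀ i, plAbv (.inl w) (κ i) < ε ∧ c₀ * plAbv (.inl w) (κ i) ≤ plAbv (.inl w) (star (κ i)) ∧
    c₀ * plAbv (.inl w) (κ i) ≤ plAbv (.inl w) (κ i - star (κ i))) ∧
  plAbv (.inl w) (κ₀ - 1) < ε ∧
  (∀ z, HasNrd K n (ρ - 1) z → plAbv (.inl w) z < ε) ∧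
  ∀ z, HasNrd K n (star ρ - 1) z → plAbv (.inl w) z < ε

theorem plAbv_eq {w : HeightOneSpectrum (𝓞 K)} {x y : K}
    (h : w.valuation K x = w.valuation K y) : plAbv (.inl w) x = plAbv (.inl w) y := by
  refine le_antisymm (not_lt.mp fun h1 => ?_) (not_lt.mp fun h1 => ?_)
  · rw [plAbv_lt, h] at h1
    exact lt_irrefl _ h1
  · rw [plAbv_lt, h] at h1
    exact lt_irrefl _ h1

theorem nearK {u : HeightOneSpectrum (𝓞 K)} {ϖ : K} (h0 : ϖ ≠ 0) (h1 : u.valuation K ϖ < 1)
    {m A B : ℕ} (hmA : m ≤ A) (hBn : B < m + n) (hAB : A ≠ B)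
    {x y : K} (hx : u.valuation K x = u.valuation K ϖ ^ A)
    (hy : u.valuation K y = u.valuation K ϖ ^ B) {c₀ : ℝ}
    (hc : c₀ ≤ plAbv (.inl u) ϖ ^ n) {ε : ℝ} (hε : plAbv (.inl u) ϖ ^ m < ε) :
    x ≠ y ∧ plAbv (.inl u) x < ε ∧ c₀ * plAbv (.inl u) x ≤ plAbv (.inl u) y ∧
      c₀ * plAbv (.inl u) x ≤ plAbv (.inl u) (x - y) := by
  have hϖ0 : 0 < u.valuation K ϖ := zero_lt_iff.mpr ((Valuation.ne_zero_iff _).mpr h0)
  have hp0 : 0 < plAbv (.inl u) ϖ := (plAbv (.inl u)).pos h0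
  have hp1 : plAbv (.inl u) ϖ < 1 := (plAbv_lt_one u ϖ).mpr h1
  have hx' : plAbv (.inl u) x = plAbv (.inl u) ϖ ^ A := by
    rw [← map_pow]; exact plAbv_eq (by rw [hx, map_pow])
  have hy' : plAbv (.inl u) y = plAbv (.inl u) ϖ ^ B := by
    rw [← map_pow]; exact plAbv_eq (by rw [hy, map_pow])
  have hne : u.valuation K x ≠ u.valuation K y := by
    rw [hx, hy]
    intro h
    rcases lt_or_gt_of_ne hAB with h2 | h2
    · exact absurd (pow_lt_pow_right_of_lt_one₀ hϖ0 h1 h2) (by rw [h]; exact lt_irrefl _)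
    · exact absurd (pow_lt_pow_right_of_lt_one₀ hϖ0 h1 h2) (by rw [h]; exact lt_irrefl _)
  have hc1 : c₀ ≤ 1 := hc.trans (pow_le_one₀ hp0.le hp1.le)
  have hsub : plAbv (.inl u) x ≤ plAbv (.inl u) (x - y) := by
    rw [← not_lt, plAbv_lt, not_lt]
    rcases lt_or_gt_of_ne hne with h2 | h2
    · rw [Valuation.map_sub_eq_of_lt_right _ h2]
      exact h2.le
    · rw [Valuation.map_sub_eq_of_lt_left _ h2]
  refine ⟨fun h => hne (by rw [h]), ?_, ?_, ?_⟩
  · rw [hx']
    exact (pow_le_pow_of_le_one hp0.le hp1.le hmA).trans_lt hε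
  · rw [hx', hy']
    calc c₀ * plAbv (.inl u) ϖ ^ A ≤ plAbv (.inl u) ϖ ^ n * plAbv (.inl u) ϖ ^ A := by gcongr
      _ = plAbv (.inl u) ϖ ^ (n + A) := by rw [pow_add]
      _ ≤ plAbv (.inl u) ϖ ^ B := pow_le_pow_of_le_one hp0.le hp1.le (by omega)
  · refine le_trans ?_ hsub
    calc c₀ * plAbv (.inl u) x ≤ 1 * plAbv (.inl u) x :=
          mul_le_mul_of_nonneg_right hc1 ((plAbv (.inl u)).nonneg _)
      _ = _ := one_mul _

theorem exists_pos_le {α : Type*} {S : Set α} (hS : S.Finite) (φ : α → ℝ) (hφ : ∀ x, 0 < φ x) :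
    ∃ c : ℝ, 0 < c ∧ ∀ x ∈ S, c ≤ φ x := by
  rcases S.eq_empty_or_nonempty with h | h
  · exact ⟨1, one_pos, fun x hx => by rw [h] at hx; exact hx.elim⟩
  · obtain ⟨x, hx, hmin⟩ := Set.exists_min_image S φ hS h
    exact ⟨φ x, hφ x, hmin⟩

/-- The local data at one place. -/
theorem exists_local (hst : ∀ c : K, star (algebraMap K D c) = algebraMap K D (star c))
    [FiniteDimensional K D] [Algebra.IsCentral K D]
    (hn : n ≠ 0) (hdeg : finrank K D = n ^ 2)
    {w w' : HeightOneSpectrum (𝓞 K)} (hw : ∀ z, w'.valuation K (star z) = w.valuation K z)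
    {π : K} (hπ0 : π ≠ 0) (hπ1 : w.valuation K π < 1) (m : ℕ)
    {γ : Z0} (hγ : γ ≠ 0) (e : Equiv.Perm (Fin n)) :
    ∃ (a b : Fin n → K) (θ : K) (δ : Z0), δ ≠ 0 ∧
      ∀ (κ : Fin n → K) (κ₀ : K), (∀ i, w.valuation K (κ i - a i) < δ) →
        (∀ i, w.valuation K (star (κ i) - b (e i)) < δ) → w.valuation K (κ₀ - (1 - θ)) < δ →
        w.valuation K (star κ₀ - (1 + θ)) < δ →
        κ₀ ≠ 1 ∧ κ₀ * star κ₀ ≠ 1 ∧
        (∀ i : Fin n, w.valuation K (κ i) = w.valuation K π ^ (m + (n - 1 - i))) ∧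
        (∀ i : Fin n, w.valuation K (star (κ i)) = w.valuation K π ^ (m + (n - 1 - (e i : ℕ)))) ∧
        w.valuation K (κ₀ - 1) < γ ∧ w.valuation K (star κ₀ - 1) < γ ∧
        ∀ f : K[X], f = C (1 - κ₀)⁻¹ * (pp (fun i => star (κ i)) - C κ₀ * pp κ) → f.Monic →
          f.natDegree = n → TGT K D n w γ f ∧ TGT K D n w' γ f := by
  obtain ⟨Q, γ', hQm, hQn, hγ', hQ⟩ := exists_target2 (D := D) hst hn hdeg hw hγ
  have hmin : min γ' γ ≠ 0 := by
    rcases min_choice γ' γ with h | h <;> rw [h] <;> assumption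
  have hd : ∀ (x : w.adicCompletion K) (δ : Z0), δ ≠ 0 →
      ∃ y : K, Valued.v (x - algebraMap K (w.adicCompletion K) y) < δ := by
    intro x δ hδ
    exact Even.dense_val w x δ hδ
  obtain ⟨a, b, θ, δ, hδ, hθ0, hθ1, hθγ, ha, hb, hmain⟩ := local_good (V := w.valuation K)
    (w := (Valued.v : Valuation (w.adicCompletion K) Z0)) (ι := algebraMap K (w.adicCompletion K))
    (H976.Newt.hen_adic w) (fun x => valued_alg w x) hd
    (fun γ hγ => Pow.exists_small w hγ) hπ0 hπ1 (m := m) hQm hQn hmin e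
  · refine ⟨a, b, θ, δ, hδ, fun κ κ₀ h1 h2 h3 h4 => ?_⟩
    obtain ⟨g1, g2, g3, g4, g5, g6, g7⟩ := hmain κ (fun i => star (κ i)) κ₀ (star κ₀) h1 h2 h3 h4
    have hVθ : w.valuation K θ ≠ 0 := (Valuation.ne_zero_iff _).mpr hθ0
    refine ⟨fun h => ?_, g5, fun i => by rw [g1, ha], fun i => by rw [g2, hb], ?_, ?_, ?_⟩
    · rw [h, sub_self, map_zero] at g3
      exact hVθ g3.symm
    · rw [Valuation.map_sub_swap, g3]
      exact hθγ.trans_le (min_le_right _ _)
    · rw [Valuation.map_sub_swap, g4]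
      exact hθγ.trans_le (min_le_right _ _)
    · intro f hf hfm hfn
      obtain ⟨t1, t2⟩ := hQ f hfm hfn
      refine ⟨t1 fun j => ?_, t2 fun j => ?_⟩
      · rw [hf]
        exact (g6 j).trans_le (min_le_left _ _)
      · have e1 : f.map (starRingEnd K) = C (1 - star κ₀)⁻¹ * (pp κ - C (star κ₀) *
            pp (fun i => star (κ i))) := by
          rw [hf]
          simp only [pp, Polynomial.map_mul, Polynomial.map_sub, Polynomial.map_prod, map_C, map_X,
            starRingEnd_apply, star_star, star_inv₀, star_sub, star_one]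
        rw [e1]
        exact (g7 j).trans_le (min_le_left _ _)

/-- **Good elements.** -/
theorem exists_good (hS : Setting k K D d s) (hn : 2 ≤ n) (hodd : Odd n)
    (hdeg : finrank K D = n ^ 2) (T : Set (HeightOneSpectrum (𝓞 k))) (hT : T.Finite)
    (hTs : ∀ v ∈ T, d ∈ LS (v.valuation k)) :
    ∃ c₀ : ℝ, 0 < c₀ ∧ ∀ ε : ℝ, 0 < ε → ∃ (ρ : D) (κ : Fin n → K) (κ₀ : K),
      (minpoly K ρ).natDegree = n ∧ minpoly K ρ ≠ (minpoly K ρ).map (starRingEnd K) ∧
      aeval ρ (pp fun i => star (κ i)) = algebraMap K D κ₀ * aeval ρ (pp κ) ∧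
      κ₀ * star κ₀ ≠ 1 ∧ (∀ i, star (κ i) ≠ κ i) ∧
      ∀ v ∈ T, ∀ w, Ab w v → NearG K w c₀ ε ρ κ κ₀ := by
  classical
  have := hS.fin
  have := hS.cen
  have hst : ∀ c : K, star (algebraMap K D c) = algebraMap K D (star c) := fun c => hS.star_alg c
  have hn0 : n ≠ 0 := by omega
  -- the places
  obtain ⟨S, hSe⟩ : ∃ S, S = T ∪ Ram k K D n := ⟨_, rfl⟩
  have hSf : S.Finite := by rw [hSe]; exact hT.union (ram_finite (by omega) hdeg)
  have hSs : ∀ v ∈ S, d ∈ LS (v.valuation k) := by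
    intro v hv
    rw [hSe] at hv
    rcases hv with h | h
    · exact hTs v h
    · exact ram_split hS (by omega) hdeg h
  choose w w' hw hw' hs hs' hne hab using fun v => exists_two hS v
  have hne' : ∀ v ∈ S, w' v ≠ w v := fun v hv => hne v (hSs v hv)
  -- splitting outside
  have hout : ∀ u : HeightOneSpectrum (𝓞 K), (∀ v ∈ S, ¬ Ab u v) →
      Spl D n (algebraMap K (u.adicCompletion K)) := by
    intro u hu
    obtain ⟨v, hv⟩ := Arith.exists_below (F := k) u
    by_contra hcon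
    refine hu v ?_ hv
    rw [hSe]
    exact Or.inr ⟨u, hv, hcon⟩
  -- there are places
  have hSne : S.Nonempty := by
    rw [Set.nonempty_iff_ne_empty]
    intro he
    have h1 : Spl D n (algebraMap K K) := by
      refine abhn_odd hodd hdeg K fun u => ?_
      have h2 := hout u (by rw [he]; exact fun v hv => hv.elim)
      have h3 : pl (F := K) K u = algebraMap K (u.adicCompletion K) := by
        ext x
        rfl
      rw [h3]
      exact h2
    have h4 := dvd_of_spl hdeg K h1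
    rw [finrank_self] at h4
    have := Nat.le_of_dvd one_pos h4
    omega
  choose π hπ using fun v => (w v).valuation_exists_uniformizer K
  have hπ0 : ∀ v, π v ≠ 0 := by
    intro v h
    have := hπ v
    rw [h, map_zero] at this
    exact WithZero.exp_ne_zero this.symm
  have hπ1 : ∀ v, (w v).valuation K (π v) < 1 := by
    intro v
    rw [hπ v, ← WithZero.exp_zero, WithZero.exp_lt_exp]
    norm_num
  have hπ0' : ∀ v, star (π v) ≠ 0 := fun v => star_ne_zero.mpr (hπ0 v)
  have hπ1' : ∀ v, (w' v).valuation K (star (π v)) < 1 := fun v => by rw [hs]; exact hπ1 v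
  have hp0 : ∀ v, 0 < plAbv (.inl (w v)) (π v) := fun v => (plAbv _).pos (hπ0 v)
  have hp0' : ∀ v, 0 < plAbv (.inl (w' v)) (star (π v)) := fun v => (plAbv _).pos (hπ0' v)
  have hp1 : ∀ v, plAbv (.inl (w v)) (π v) < 1 := fun v => (plAbv_lt_one _ _).mpr (hπ1 v)
  have hp1' : ∀ v, plAbv (.inl (w' v)) (star (π v)) < 1 := fun v => (plAbv_lt_one _ _).mpr (hπ1' v)
  obtain ⟨c₀, hc₀, hc⟩ := exists_pos_le hSf
    (fun v => min (plAbv (.inl (w v)) (π v) ^ n) (plAbv (.inl (w' v)) (star (π v)) ^ n))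
    (fun v => lt_min (pow_pos (hp0 v) n) (pow_pos (hp0' v) n))
  refine ⟨c₀, hc₀, fun ε hε => ?_⟩
  -- the permutation
  obtain ⟨e, he⟩ : ∃ e : Equiv.Perm (Fin n), ∀ i, e i ≠ i := by
    obtain ⟨n', rfl⟩ : ∃ n', n = n' + 2 := ⟨n - 2, by omega⟩
    refine ⟨finRotate (n' + 2), fun i => ?_⟩
    rw [finRotate_apply]
    intro h
    have h1 : (1 : Fin (n' + 2)) = 0 := by
      have := add_eq_left.mp h
      exact this
    exact absurd h1 (by simp)
  choose γ hγ0 hγ using fun u : HeightOneSpectrum (𝓞 K) => exists_gamma u hε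
  have hm : ∀ v, ∃ m : ℕ, plAbv (.inl (w v)) (π v) ^ m < ε ∧
      plAbv (.inl (w' v)) (star (π v)) ^ m < ε := by
    intro v
    obtain ⟨m₁, h1⟩ := exists_pow_lt_of_lt_one hε (hp1 v)
    obtain ⟨m₂, h2⟩ := exists_pow_lt_of_lt_one hε (hp1' v)
    refine ⟨max m₁ m₂, ?_, ?_⟩
    · exact (pow_le_pow_of_le_one (hp0 v).le (hp1 v).le (le_max_left _ _)).trans_lt h1
    · exact (pow_le_pow_of_le_one (hp0' v).le (hp1' v).le (le_max_right _ _)).trans_lt h2
  choose m hm1 hm2 using hm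
  have hγm : ∀ v, min (γ (w v)) (γ (w' v)) ≠ 0 := fun v => by
    rcases min_choice (γ (w v)) (γ (w' v)) with h | h <;> rw [h]
    · exact hγ0 _
    · exact hγ0 _
  choose a b θ δ hδ hloc using fun v => exists_local (D := D) hst hn0 hdeg (hs v) (hπ0 v) (hπ1 v)
    (m v) (hγm v) e
  -- approximation
  choose κ hκ using fun i : Fin n => weak2 hSf hw hw' hs hne' (fun v => a v i)
    (fun v => b v (e i)) δ hδ
  obtain ⟨κ₀, hκ₀⟩ := weak2 hSf hw hw' hs hne' (fun v => 1 - θ v) (fun v => 1 + θ v) δ hδ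
  have hloc' := fun v (hv : v ∈ S) => hloc v κ κ₀ (fun i => (hκ i v hv).1)
    (fun i => (hκ i v hv).2) (hκ₀ v hv).1 (hκ₀ v hv).2
  obtain ⟨f, hf⟩ : ∃ f : K[X], f = C (1 - κ₀)⁻¹ * (pp (fun i => star (κ i)) - C κ₀ * pp κ) :=
    ⟨_, rfl⟩
  obtain ⟨v₀, hv₀⟩ := hSne
  obtain ⟨hκ1, hκN, -⟩ := hloc' v₀ hv₀
  have hcK : (1 - κ₀) ≠ 0 := sub_ne_zero.mpr (Ne.symm hκ1)
  have hpp : ∀ κ : Fin n → K, (pp κ).Monic ∧ (pp κ).natDegree = n := by
    intro κ
    refine ⟨monic_prod_of_monic _ _ fun i _ => monic_X_sub_C _, ?_⟩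
    rw [pp, natDegree_finsetProd_X_sub_C_eq_card, Finset.card_univ, Fintype.card_fin]
  have hppn : ∀ κ : Fin n → K, (pp κ).coeff n = 1 := fun κ => by
    have := (hpp κ).1.coeff_natDegree
    rwa [(hpp κ).2] at this
  have hppj : ∀ (κ : Fin n → K) (j : ℕ), n < j → (pp κ).coeff j = 0 := fun κ j hj =>
    coeff_eq_zero_of_natDegree_lt (by rw [(hpp κ).2]; exact hj)
  obtain ⟨hfm, hfn⟩ := monic_of_coeff (P := f) (n := n)
    (by rw [hf, coeff_C_mul, coeff_sub, coeff_C_mul, hppn, hppn, mul_one, inv_mul_cancel₀ hcK])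
    (fun j hj => by
      rw [hf, coeff_C_mul, coeff_sub, coeff_C_mul, hppj _ j hj, hppj _ j hj, mul_zero, sub_zero,
        mul_zero])
  have hTG : ∀ v ∈ S, TGT K D n (w v) (min (γ (w v)) (γ (w' v))) f ∧
      TGT K D n (w' v) (min (γ (w v)) (γ (w' v))) f := fun v hv =>
    (hloc' v hv).2.2.2.2.2.2 f hf hfm hfn
  obtain ⟨hirr, ρ, hmin, hnrd⟩ := exists_root_of_poly hodd hdeg f hfn hfm (by
    intro L _ _ _ W ξ hξ
    obtain ⟨u, hu⟩ := Arith.exists_below (F := K) W
    by_cases h : ∃ v ∈ S, Ab u v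
    · obtain ⟨v, hv, huv⟩ := h
      rcases hab v u huv with h1 | h1
      · rw [h1] at hu
        exact (hTG v hv).1.1 L W hu ξ hξ
      · rw [h1] at hu
        exact (hTG v hv).2.1 L W hu ξ hξ
    · have h1 := hout u (fun v hv huv => h ⟨v, hv, huv⟩)
      obtain ⟨g, hg⟩ := completion_map hu
      have h2 := h1.comp g
      have h3 : g.comp (algebraMap K (u.adicCompletion K)) = pl (F := K) L W :=
        RingHom.ext fun x => hg x
      rwa [h3] at h2)
  have hval1 : ∀ (u : HeightOneSpectrum (𝓞 K)) (x : K), u.valuation K ((-1) ^ n * x) =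
      u.valuation K x := fun u x => by
    rw [map_mul, map_pow, Valuation.map_neg, map_one, one_pow, one_mul]
  refine ⟨ρ, κ, κ₀, by rw [hmin, hfn], ?_, ?_, hκN, ?_, ?_⟩
  · -- the conjugate polynomial is different
    rw [hmin]
    intro heq
    have e1 : f.map (starRingEnd K) = C (1 - star κ₀)⁻¹ * (pp κ - C (star κ₀) *
        pp (fun i => star (κ i))) := by
      rw [hf]
      simp only [pp, Polynomial.map_mul, Polynomial.map_sub, Polynomial.map_prod, map_C, map_X,
        starRingEnd_apply, star_star, star_inv₀, star_sub, star_one]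
    obtain ⟨x, hx⟩ : ∃ x, x = (1 - κ₀)⁻¹ := ⟨_, rfl⟩
    obtain ⟨y, hy⟩ : ∃ y, y = (1 - star κ₀)⁻¹ := ⟨_, rfl⟩
    obtain ⟨A, hA⟩ : ∃ A, A = pp κ := ⟨_, rfl⟩
    obtain ⟨B, hB⟩ : ∃ B, B = pp (fun i => star (κ i)) := ⟨_, rfl⟩
    have hx0 : x ≠ 0 := by rw [hx]; exact inv_ne_zero hcK
    rw [← hx, ← hA, ← hB] at hf
    rw [← hy, ← hA, ← hB] at e1
    have e2 : C (x + y * star κ₀) * B = C (y + x * κ₀) * A := by
      have e3 : C x * (B - C κ₀ * A) = C y * (A - C (star κ₀) * B) := by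
        rw [← hf, ← e1]; exact heq
      simp only [C_add, C_mul]
      linear_combination e3
    have e4 : x + y * star κ₀ = y + x * κ₀ := by
      have := congrArg (fun q => coeff q n) e2
      simpa only [coeff_C_mul, hA, hB, hppn, mul_one] using this
    by_cases hc : y + x * κ₀ = 0
    · apply hκN
      have h1 : x * (κ₀ * star κ₀ - 1) = 0 := by
        linear_combination star κ₀ * hc - (e4.trans hc)
      rcases mul_eq_zero.mp h1 with h2 | h2
      · exact absurd h2 hx0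
      · exact sub_eq_zero.mp h2
    · rw [e4] at e2
      have hAB : B = A := mul_left_cancel₀ (C_ne_zero.mpr hc) e2
      have h1 : f = A := by
        rw [hf, hAB]
        have h2 : A - C κ₀ * A = C (1 - κ₀) * A := by rw [C_sub, C_1]; ring
        rw [h2, ← mul_assoc, ← C_mul, hx, inv_mul_cancel₀ hcK, C_1, one_mul]
      obtain ⟨i₀, -⟩ : ∃ i₀ : Fin n, True := ⟨⟨0, by omega⟩, trivial⟩
      have h3 : f.IsRoot (κ i₀) := by
        rw [h1, hA, IsRoot, pp, eval_prod]
        exact Finset.prod_eq_zero (Finset.mem_univ i₀) (by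
          rw [eval_sub, eval_X, eval_C, sub_self])
      have h4 := degree_eq_one_of_irreducible_of_root hirr h3
      have h5 : f.natDegree = 1 := natDegree_eq_of_degree_eq_some h4
      rw [hfn] at h5
      omega
  · -- the equation
    have h1 : aeval ρ f = 0 := by rw [← hmin]; exact minpoly.aeval K ρ
    rw [hf, map_mul, map_sub, map_mul, aeval_C, aeval_C] at h1
    rcases mul_eq_zero.mp h1 with h2 | h2
    · exact absurd ((map_eq_zero_iff _ (algebraMap K D).injective).mp h2) (inv_ne_zero hcK)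
    · exact sub_eq_zero.mp h2
  · intro i h
    obtain ⟨-, -, h1, h2, -⟩ := hloc' v₀ hv₀
    have h3 := nearK (n := n) (hπ0 v₀) (hπ1 v₀) (m := m v₀) (Nat.le_add_right _ _)
      (by omega : m v₀ + (n - 1 - (e i : ℕ)) < m v₀ + n) (fun h4 => he i (Fin.ext (by
        have := i.2
        have := (e i).2
        omega))) (h1 i) (h2 i) ((hc v₀ hv₀).trans (min_le_left _ _)) (hm1 v₀)
    exact h3.1 h.symm
  · intro v hv u huv
    have hvS : v ∈ S := by rw [hSe]; exact Or.inl hv
    obtain ⟨-, -, h1, h2, h3, h4, -⟩ := hloc' v hvS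
    obtain ⟨⟨-, g1⟩, ⟨-, g2⟩⟩ := hTG v hvS
    have hexp : ∀ i : Fin n, m v + (n - 1 - (i : ℕ)) ≠ m v + (n - 1 - (e i : ℕ)) := fun i h4 =>
      he i (Fin.ext (by
        have := i.2
        have := (e i).2
        omega))
    have hu1 : ∀ z, HasNrd K n (ρ - 1) z → z = (-1) ^ n * f.eval 1 := fun z hz =>
      hz.unique hdeg hnrd
    have hu2 : ∀ z, HasNrd K n (star ρ - 1) z → z = star ((-1) ^ n * f.eval 1) := fun z hz => by
      have h5 := hnrd.star hst
      rw [star_sub, star_one] at h5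
      exact hz.unique hdeg h5
    rcases hab v u huv with rfl | rfl
    · refine ⟨fun i => (nearK (n := n) (hπ0 v) (hπ1 v) (m := m v) (Nat.le_add_right _ _)
        (by omega) (hexp i) (h1 i) (h2 i) ((hc v hvS).trans (min_le_left _ _)) (hm1 v)).2,
        hγ _ _ (h3.trans_le (min_le_left _ _)), fun z hz => ?_, fun z hz => ?_⟩
      · rw [hu1 z hz]
        refine hγ _ _ ?_
        rw [hval1]
        exact g1.trans_le (min_le_left _ _)
      · rw [hu2 z hz]
        refine hγ _ _ ?_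
        rw [← hs', hval1]
        exact g2.trans_le (min_le_left _ _)
    · refine ⟨fun i => (nearK (n := n) (hπ0' v) (hπ1' v) (m := m v) (Nat.le_add_right _ _)
        (by omega) (hexp i).symm (by rw [hs', hs, h2]) (by rw [hs, hs, h1])
        ((hc v hvS).trans (min_le_right _ _)) (hm2 v)).2,
        hγ _ _ ?_, fun z hz => ?_, fun z hz => ?_⟩
      · rw [hs', star_sub, star_one]
        exact h4.trans_le (min_le_right _ _)
      · rw [hu1 z hz]
        refine hγ _ _ ?_
        rw [hval1]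
        exact g2.trans_le (min_le_right _ _)
      · rw [hu2 z hz]
        refine hγ _ _ ?_
        rw [hs, hval1]
        exact g1.trans_le (min_le_right _ _)

end main

end Vale.Agent.P011.H380.Good7
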