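import Vale.Agent.P011.H380.Good7.Loc
import Vale.Agent.P011.H321.AvoidA
import Vale.Agent.P011.W.NearNrd
import Vale.Agent.P011.W.RedC
import Vale.Agent.P011.W.MaxF

/-!
Maximal subfields of a central division algebra over a number field which split completely at
finitely many given places where the algebra splits.
-/

open NumberField IsDedekindDomain Polynomial Module TensorProduct

namespace Vale.Agent.P011.H380.Good7

open Vale.Agent.P011.W Vale.Agent.P011S
open Vale.Agent.P011.Arith (Z0)
open Vale.Agent.P011.Even (nnf)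

section abs

variable {F B R : Type} [Field F] [DivisionRing B] [Algebra F B] [FiniteDimensional F B]
  [Algebra.IsCentral F B] [Field R] [Algebra F R] {b : ℕ}

/-- The matrices have coordinates in the basis of the algebra. -/
theorem exists_coord (hB : finrank F B = b ^ 2) (g : B →ₐ[F] Matrix (Fin b) (Fin b) R) {N : ℕ}
    (β : Basis (Fin N) F B) (X : Matrix (Fin b) (Fin b) R) :
    ∃ r : Fin N → R, ∑ l, r l • g (β l) = X := by
  have : IsSimpleRing (R ⊗[F] B) := simple_tensor
  have hb : 0 < b := deg_pos hB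
  have : Nonempty (Fin b) := ⟨⟨0, hb⟩⟩
  have hinj : Function.Injective (bcf (E := R) g) :=
    RingHom.injective ((bcf (E := R) g : R ⊗[F] B →ₐ[R] Matrix (Fin b) (Fin b) R) :
      R ⊗[F] B →+* Matrix (Fin b) (Fin b) R)
  have hfin : finrank R (R ⊗[F] B) = finrank R (Matrix (Fin b) (Fin b) R) := by
    rw [Module.finrank_baseChange, hB, Module.finrank_matrix, Fintype.card_fin,
      Module.finrank_self, mul_one, sq]
  have hsurj : Function.Surjective (bcf (E := R) g) :=
    (LinearMap.injective_iff_surjective_of_finrank_eq_finrank hfin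
      (f := (bcf (E := R) g).toLinearMap)).mp hinj
  obtain ⟨Y, hY⟩ := hsurj X
  refine ⟨fun l => (β.baseChange R).repr Y l, ?_⟩
  rw [← hY]
  conv_rhs => rw [← (β.baseChange R).sum_repr Y]
  rw [map_sum]
  refine Finset.sum_congr rfl fun l _ => ?_
  rw [map_smul, Basis.baseChange_apply, bcf_one_tmul]

/-- A matrix with a given characteristic polynomial. -/
theorem exists_matrix_charpoly {R : Type} [Field R] {n : ℕ} {P : R[X]} (hm : P.Monic)
    (hn : P.natDegree = n) : ∃ X : Matrix (Fin n) (Fin n) R, X.charpoly = P := by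
  have e : Fin (AdjoinRoot.powerBasis hm.ne_zero).dim ≃ Fin n :=
    finCongr (by rw [AdjoinRoot.powerBasis_dim, hn])
  refine ⟨Matrix.reindex e e (Algebra.leftMulMatrix (AdjoinRoot.powerBasis hm.ne_zero).basis
    (AdjoinRoot.powerBasis hm.ne_zero).gen), ?_⟩
  rw [Matrix.charpoly_reindex, charpoly_leftMulMatrix, AdjoinRoot.powerBasis_gen,
    AdjoinRoot.minpoly_root hm.ne_zero, hm.leadingCoeff, inv_one, C_1, mul_one]

/-- The coefficients of the characteristic polynomial are continuous. -/
theorem cont_charpoly {R : Type} [Field R] [TopologicalSpace R] [IsTopologicalRing R] {n N : ℕ}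
    (M : Fin N → Matrix (Fin n) (Fin n) R) (j : ℕ) :
    Continuous fun r : Fin N → R => (∑ l, r l • M l).charpoly.coeff j := by
  have h : (fun r : Fin N → R => (∑ l, r l • M l).charpoly.coeff j) =
      (fun x : Fin n × Fin n → R => MvPolynomial.eval x ((Matrix.charpoly.univ R (Fin n)).coeff j)) ∘
        fun r p => ∑ l, r l * M l p.1 p.2 := by
    funext r
    have h1 := Matrix.charpoly.univ_coeff_eval₂Hom (Fin n) (RingHom.id R)
      (fun p : Fin n × Fin n => ∑ l, r l * M l p.1 p.2) j
    have h2 : Matrix.of (Function.curry fun p : Fin n × Fin n => ∑ l, r l * M l p.1 p.2) =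
        ∑ l, r l • M l := by
      ext a c
      rw [Matrix.of_apply, Function.curry_apply, Matrix.sum_apply]
      rfl
    rw [h2] at h1
    exact h1.symm
  rw [h]
  refine (MvPolynomial.continuous_eval _).comp (continuous_pi fun p => ?_)
  fun_prop

omit [Algebra.IsCentral F B] in
/-- The minimal polynomial of an element whose local characteristic polynomial is separable. -/
theorem charpoly_dvd (g : B →ₐ[F] Matrix (Fin b) (Fin b) R) (t : B)
    (hs : (g t).charpoly.Splits) (hsep : (g t).charpoly.Separable) :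
    (g t).charpoly ∣ (minpoly F t).map (algebraMap F R) := by
  classical
  have hm := (g t).charpoly_monic
  have h0 : aeval (g t) ((minpoly F t).map (algebraMap F R)) = 0 := by
    rw [aeval_map_algebraMap, aeval_algHom_apply, minpoly.aeval, map_zero]
  have hroot : ∀ r, (g t).charpoly.IsRoot r → ((minpoly F t).map (algebraMap F R)).IsRoot r := by
    intro r hr
    have h1 : (minpoly R (g t)).IsRoot r := by
      have h2 : Module.End.HasEigenvalue (Matrix.toLin' (g t)) r := by
        rw [Module.End.hasEigenvalue_iff_isRoot_charpoly, Matrix.charpoly_toLin']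
        exact hr
      have h3 := (Module.End.hasEigenvalue_iff_isRoot).mp h2
      rwa [Matrix.minpoly_toLin'] at h3
    exact h1.dvd (minpoly.dvd R _ h0)
  rw [hs.eq_prod_roots_of_monic hm]
  refine Multiset.prod_X_sub_C_dvd_iff_le_roots ?_ _ |>.mpr ?_
  · exact (map_monic_ne_zero (minpoly.monic (IsIntegral.of_finite F t)))
  · rw [Multiset.le_iff_subset (nodup_roots hsep)]
    intro r hr
    rw [mem_roots (map_monic_ne_zero (minpoly.monic (IsIntegral.of_finite F t)))]
    exact hroot r (isRoot_of_mem_roots hr)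

end abs

section loc

variable {F B : Type} [Field F] [NumberField F] [DivisionRing B] [Algebra F B]
  [FiniteDimensional F B] [Algebra.IsCentral F B] {b : ℕ}

theorem exists_local_split (hB : finrank F B = b ^ 2) (v : HeightOneSpectrum (𝓞 F))
    (g : B →ₐ[F] Matrix (Fin b) (Fin b) (v.adicCompletion F)) {N : ℕ} (β : Basis (Fin N) F B) :
    ∃ (a : Fin N → F) (γ : Fin N → Z0), (∀ l, γ l ≠ 0) ∧ ∀ x : Fin N → F,
      (∀ l, v.valuation F (x l - a l) < γ l) →
        (g (∑ l, x l • β l)).charpoly.Splits ∧ (g (∑ l, x l • β l)).charpoly.Separable := by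
  obtain ⟨π, hπ⟩ := v.valuation_exists_uniformizer F
  set ϖ : v.adicCompletion F := algebraMap F (v.adicCompletion F) π with hϖ
  have hϖv : Valued.v ϖ = WithZero.exp (-1 : ℤ) := by
    rw [hϖ, Even.valued_alg, hπ]
  have hϖ0 : ϖ ≠ 0 := by
    intro h
    rw [h, map_zero] at hϖv
    exact WithZero.exp_ne_zero hϖv.symm
  have hϖ1 : Valued.v ϖ < 1 := by
    rw [hϖv, ← WithZero.exp_zero, WithZero.exp_lt_exp]
    norm_num
  have hPn : (pol ϖ 0 b).coeff b = 1 := by
    rw [coeff_pol, if_pos le_rfl, ex_self, pow_zero]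
  have hP0 : ∀ j, b < j → (pol ϖ 0 b).coeff j = 0 := by
    intro j hj
    rw [coeff_pol, if_neg (not_le.mpr hj)]
  obtain ⟨hm, hn⟩ := monic_of_coeff hPn hP0
  obtain ⟨X, hX⟩ := exists_matrix_charpoly hm hn
  obtain ⟨r, hr⟩ := exists_coord hB g β X
  obtain ⟨δ, hδ, hδr⟩ : ∃ δ : ℝ, 0 < δ ∧ ∀ s : Fin N → v.adicCompletion F,
      (∀ l, ‖s l - r l‖ < δ) → ∀ j ∈ Finset.range (b + 1),
      Valued.v ((∑ l, s l • g (β l)).charpoly.coeff j) = Valued.v (ϖ ^ ex 0 b j) := by
    let _ := nnf v
    have hev : ∀ᶠ s in nhds r, ∀ j ∈ Finset.range (b + 1),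
        Valued.v ((∑ l, s l • g (β l)).charpoly.coeff j) = Valued.v (ϖ ^ ex 0 b j) := by
      rw [Filter.eventually_all_finset]
      intro j hj
      have h1 := (cont_charpoly (fun l => g (β l)) j).continuousAt (x := r)
      have h2 : ∀ᶠ c in nhds ((∑ l, r l • g (β l)).charpoly.coeff j),
          Valued.v c = Valued.v (ϖ ^ ex 0 b j) := by
        rw [hr, hX, coeff_pol, if_pos (by have := Finset.mem_range.mp hj; omega)]
        have h3 : ϖ ^ ex 0 b j ≠ 0 := pow_ne_zero _ hϖ0
        refine Metric.eventually_nhds_iff.mpr ⟨‖ϖ ^ ex 0 b j‖, norm_pos_iff.mpr h3, ?_⟩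
        intro c hc
        rw [dist_eq_norm, Even.norm_lt_iff] at hc
        exact Valuation.map_eq_of_sub_lt _ hc
      exact h1.eventually h2
    obtain ⟨δ, hδ, h⟩ := Metric.eventually_nhds_iff.mp hev
    refine ⟨δ, hδ, fun s hs => h ?_⟩
    rw [dist_pi_lt_iff hδ]
    intro l
    rw [dist_eq_norm]
    exact hs l
  obtain ⟨γ, hγ0, hγ⟩ : ∃ γ : Z0, γ ≠ 0 ∧ ∀ y : v.adicCompletion F, Valued.v y < γ → ‖y‖ < δ := by
    let _ := nnf v
    obtain ⟨z, hz0, hz⟩ := NormedField.exists_norm_lt (v.adicCompletion F) hδ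
    refine ⟨Valued.v z, (Valuation.ne_zero_iff _).mpr (norm_pos_iff.mp hz0), fun y hy => ?_⟩
    exact ((Even.norm_lt_iff v y z).mpr hy).trans hz
  choose a ha using fun l => Even.dense_val v (r l) γ hγ0
  refine ⟨a, fun l => γ, fun l => hγ0, fun x hx => ?_⟩
  have h5 := hδr (fun l => algebraMap F (v.adicCompletion F) (x l)) (by
    intro l
    apply hγ
    have e : algebraMap F (v.adicCompletion F) (x l) - r l =
        algebraMap F (v.adicCompletion F) (x l - a l) - (r l - algebraMap F _ (a l)) := by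
      rw [map_sub]; ring
    rw [e]
    refine (Valuation.map_sub _ _ _).trans_lt (max_lt ?_ (ha l))
    rw [Even.valued_alg]
    exact hx l)
  have h6 : ∑ l, algebraMap F (v.adicCompletion F) (x l) • g (β l) = g (∑ l, x l • β l) := by
    rw [map_sum]
    refine Finset.sum_congr rfl fun l _ => ?_
    rw [map_smul, algebraMap_smul]
  rw [h6] at h5
  have hval : ∀ j ≤ b, Valued.v ((g (∑ l, x l • β l)).charpoly.coeff j) = Valued.v ϖ ^ ex 0 b j := by
    intro j hj
    rw [h5 j (Finset.mem_range.mpr (by omega)), map_pow]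
  have hV : 0 < Valued.v ϖ := zero_lt_iff.mpr ((Valuation.ne_zero_iff _).mpr hϖ0)
  refine H976.Newt.newt_splits (H976.Newt.hen_adic v) (Matrix.charpoly_monic _) (n := b)
    (by rw [Matrix.charpoly_natDegree_eq_dim, Fintype.card_fin]) ?_ ?_
  · rw [← Valuation.ne_zero_iff (Valued.v : Valuation (v.adicCompletion F) _),
      hval 0 (Nat.zero_le _)]
    exact pow_ne_zero _ hV.ne'
  · intro i hi hin
    rw [hval _ (by omega), hval _ (by omega), hval _ (by omega), ← pow_add, ← pow_mul]
    apply pow_lt_pow_right_of_lt_one₀ hV hϖ1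
    have h1 := ex_succ (m := 0) (n := b) (i := i - 1) (by omega)
    have h2 := ex_succ (m := 0) (n := b) (i := i) hin
    have h3 : i - 1 + 1 = i := by omega
    rw [h3] at h1
    omega

omit [NumberField F] in
theorem natDegree_le (hB : finrank F B = b ^ 2) (t : B) : (minpoly F t).natDegree ≤ b := by
  obtain ⟨L, _, _, _, j, u, hL, hu⟩ := exists_maxfield hB t
  rw [← hu, minpoly.algHom_eq j j.injective, ← hL]
  exact minpoly.natDegree_le u

theorem exists_local_split' (hB : finrank F B = b ^ 2) (v : HeightOneSpectrum (𝓞 F))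
    (hv : Spl B b (algebraMap F (v.adicCompletion F))) {N : ℕ} (β : Basis (Fin N) F B) :
    ∃ (a : Fin N → F) (γ : Fin N → Z0), (∀ l, γ l ≠ 0) ∧ ∀ x : Fin N → F,
      (∀ l, v.valuation F (x l - a l) < γ l) → (minpoly F (∑ l, x l • β l)).natDegree = b ∧
        ((minpoly F (∑ l, x l • β l)).map (algebraMap F (v.adicCompletion F))).Splits ∧
        ((minpoly F (∑ l, x l • β l)).map (algebraMap F (v.adicCompletion F))).Separable := by
  obtain ⟨g⟩ := spl_iff.mp hv
  obtain ⟨a, γ, hγ, h⟩ := exists_local_split hB v g β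
  refine ⟨a, γ, hγ, fun x hx => ?_⟩
  obtain ⟨h1, h2⟩ := h x hx
  have h3 := charpoly_dvd g _ h1 h2
  have hm : (minpoly F (∑ l, x l • β l)).Monic := minpoly.monic (IsIntegral.of_finite F _)
  have h4 : (minpoly F (∑ l, x l • β l)).natDegree ≤ b := natDegree_le hB _
  have h5 : (g (∑ l, x l • β l)).charpoly.natDegree = b := by
    rw [Matrix.charpoly_natDegree_eq_dim, Fintype.card_fin]
  have h6 : (g (∑ l, x l • β l)).charpoly =
      (minpoly F (∑ l, x l • β l)).map (algebraMap F (v.adicCompletion F)) :=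
    (eq_of_monic_of_dvd_of_natDegree_le (Matrix.charpoly_monic _) (hm.map _) h3 (by
      rw [natDegree_map, h5]
      exact h4)).symm
  rw [← h6]
  refine ⟨?_, h1, h2⟩
  rw [← h5, h6, natDegree_map]

/-- **Split maximal subfields**, generator form. -/
theorem exists_split_max (hB : finrank F B = b ^ 2) (V : Finset (HeightOneSpectrum (𝓞 F)))
    (hV : ∀ v ∈ V, Spl B b (algebraMap F (v.adicCompletion F))) :
    ∃ t : B, (minpoly F t).natDegree = b ∧
      ∀ v ∈ V, ((minpoly F t).map (algebraMap F (v.adicCompletion F))).Splits ∧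
        ((minpoly F t).map (algebraMap F (v.adicCompletion F))).Separable := by
  classical
  have hb := deg_pos hB
  rcases V.eq_empty_or_nonempty with rfl | ⟨v0, hv0⟩
  · obtain ⟨g⟩ := exists_split (K := F) (D := B) hB (AlgebraicClosure F)
    obtain ⟨t, -, ht, -⟩ := exists_generic hb hB g (finBasis F B) (fun _ => Set.univ)
      (fun _ => Set.infinite_univ)
    exact ⟨_, ht, fun v hv => absurd hv (Finset.notMem_empty v)⟩
  choose! a γ hγ h using fun v hv => exists_local_split' hB v (hV v hv) (finBasis F B)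
  choose x hx _ using fun l => H321.Avoid.approx V (fun v => a v l) (fun v => γ v l)
    (fun v hv => hγ v hv l)
  refine ⟨∑ l, x l • finBasis F B l, (h v0 hv0 x fun l => hx l v0 hv0).1, fun v hv => ?_⟩
  exact (h v hv x fun l => hx l v hv).2

/-- **Split maximal subfields**. -/
theorem exists_split_field (hB : finrank F B = b ^ 2) (V : Finset (HeightOneSpectrum (𝓞 F)))
    (hV : ∀ v ∈ V, Spl B b (algebraMap F (v.adicCompletion F))) :
    ∃ (E : Type) (_ : Field E) (_ : NumberField E) (_ : Algebra F E) (_ : E →ₐ[F] B),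
      finrank F E = b ∧ ∀ v ∈ V, Nonempty (E →ₐ[F] v.adicCompletion F) := by
  obtain ⟨t, ht, hsp⟩ := exists_split_max hB V hV
  obtain ⟨L, _, _, _, j, u, hL, hu⟩ := exists_maxfield hB t
  have hch : CharZero L := charZero_of_injective_algebraMap (algebraMap F L).injective
  have hfq : FiniteDimensional ℚ L := Module.Finite.trans F _
  have hNF : NumberField L := { to_charZero := hch, to_finiteDimensional := hfq }
  have hmin : minpoly F u = minpoly F t := by
    rw [← hu, minpoly.algHom_eq j j.injective]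
  refine ⟨L, inferInstance, hNF, inferInstance, j, hL, fun v hv => ?_⟩
  obtain ⟨h1, -⟩ := hsp v hv
  have hb := deg_pos hB
  obtain ⟨α, hα⟩ := h1.exists_eval_eq_zero (by
    rw [degree_map]
    intro h0
    have h2 : (minpoly F t).natDegree = 0 := natDegree_eq_of_degree_eq_some h0
    rw [ht] at h2
    exact hb.ne' h2)
  refine exists_algHom u (by rw [hmin, ht, hL]) α ?_
  rw [hmin, aeval_def, ← eval_map]
  exact hα

/-- Almost all places split the algebra. -/
theorem exists_spl_set (hB : finrank F B = b ^ 2) :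
    ∃ S : Finset (HeightOneSpectrum (𝓞 F)), ∀ v ∉ S, Spl B b (algebraMap F (v.adicCompletion F)) := by
  classical
  obtain ⟨S, hSf, hS⟩ := spl_almost (deg_pos hB) hB
  refine ⟨hSf.toFinset, fun v hv => ?_⟩
  have h1 := hS v (fun h => hv (hSf.mem_toFinset.mpr h)) F v (by
    ext x
    rfl)
  exact h1

end loc

end Vale.Agent.P011.H380.Good7
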