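import Vale.Agent.P011.H380.Good7.SplitMax
import Vale.Agent.P011.H961.SplitAE
import Vale.Agent.P011.H872.GF.NewtC
import Vale.Agent.P011.H73.Sp1
import Vale.Agent.P011.Hey.Fin0

/-!
Maximal subfields of a central division algebra over a global function field which are separable
and split completely at finitely many given places where the algebra splits.
-/

open Polynomial Module TensorProduct

set_option linter.unusedSectionVars false

namespace Vale.Agent.P011.H380.Good7

open Vale.Agent.P011.H738 Vale.Agent.P011.H271 Vale.Agent.P011.W Vale.Agent.P011S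

section

variable {F B : Type} [Field F] [GFF F] [DivisionRing B] [Algebra F B]
  [FiniteDimensional F B] [Algebra.IsCentral F B] {b : ℕ}

theorem exists_local_splitF (hB : finrank F B = b ^ 2) (v : Place F)
    (g : B →ₐ[F] Matrix (Fin b) (Fin b) v.comp) {N : ℕ} (β : Basis (Fin N) F B) :
    ∃ (a : Fin N → F) (γ : ℝ), 0 < γ ∧ ∀ x : Fin N → F,
      (∀ l, v.abv (x l - a l) < γ) →
        (g (∑ l, x l • β l)).charpoly.Splits ∧ (g (∑ l, x l • β l)).charpoly.Separable := by
  obtain ⟨π', hπ'⟩ := H73.Sp.exists_lt_one v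
  obtain ⟨π, hπ0, hπ1⟩ : ∃ π : F, π ≠ 0 ∧ v.abv π < 1 := ⟨π', π'.ne_zero, hπ'⟩
  set ϖ : v.comp := algebraMap F v.comp π with hϖ
  have hϖ0 : ϖ ≠ 0 := (_root_.map_ne_zero _).mpr hπ0
  have hϖ1 : ‖ϖ‖ < 1 := by rw [hϖ, norm_alg]; exact hπ1
  have hPn : (pol ϖ 0 b).coeff b = 1 := by
    rw [coeff_pol, if_pos le_rfl, ex_self, pow_zero]
  have hP0 : ∀ j, b < j → (pol ϖ 0 b).coeff j = 0 := by
    intro j hj
    rw [coeff_pol, if_neg (not_le.mpr hj)]
  obtain ⟨hm, hn⟩ := monic_of_coeff hPn hP0
  obtain ⟨X, hX⟩ := exists_matrix_charpoly hm hn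
  obtain ⟨r, hr⟩ := exists_coord hB g β X
  obtain ⟨δ, hδ, hδr⟩ : ∃ δ : ℝ, 0 < δ ∧ ∀ s : Fin N → v.comp,
      (∀ l, ‖s l - r l‖ < δ) → ∀ j ∈ Finset.range (b + 1),
      ‖(∑ l, s l • g (β l)).charpoly.coeff j‖ = ‖ϖ‖ ^ ex 0 b j := by
    have hev : ∀ᶠ s in nhds r, ∀ j ∈ Finset.range (b + 1),
        ‖(∑ l, s l • g (β l)).charpoly.coeff j‖ = ‖ϖ‖ ^ ex 0 b j := by
      rw [Filter.eventually_all_finset]
      intro j hj
      have h1 := (cont_charpoly (fun l => g (β l)) j).continuousAt (x := r)
      have h2 : ∀ᶠ c in nhds ((∑ l, r l • g (β l)).charpoly.coeff j),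
          ‖c‖ = ‖ϖ‖ ^ ex 0 b j := by
        rw [hr, hX, coeff_pol, if_pos (by have := Finset.mem_range.mp hj; omega), ← norm_pow]
        have h3 : ϖ ^ ex 0 b j ≠ 0 := pow_ne_zero _ hϖ0
        refine Metric.eventually_nhds_iff.mpr ⟨‖ϖ ^ ex 0 b j‖, norm_pos_iff.mpr h3, ?_⟩
        intro c hc
        rw [dist_eq_norm] at hc
        have h4 := IsUltrametricDist.norm_add_eq_max_of_norm_ne_norm (x := c - ϖ ^ ex 0 b j)
          (y := ϖ ^ ex 0 b j) hc.ne
        rw [sub_add_cancel, max_eq_right hc.le] at h4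
        exact h4
      exact h1.eventually h2
    obtain ⟨δ, hδ, h⟩ := Metric.eventually_nhds_iff.mp hev
    refine ⟨δ, hδ, fun s hs => h ?_⟩
    rw [dist_pi_lt_iff hδ]
    intro l
    rw [dist_eq_norm]
    exact hs l
  choose a ha using fun l => dense_alg v (r l) hδ
  refine ⟨a, δ, hδ, fun x hx => ?_⟩
  have h5 := hδr (fun l => algebraMap F v.comp (x l)) (by
    intro l
    have e : algebraMap F v.comp (x l) - r l =
        algebraMap F v.comp (x l - a l) + -(r l - algebraMap F v.comp (a l)) := by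
      rw [map_sub]; ring
    rw [e]
    refine (IsUltrametricDist.norm_add_le_max _ _).trans_lt (max_lt ?_ ?_)
    · rw [norm_alg]; exact hx l
    · rw [norm_neg]; exact ha l)
  have h6 : ∑ l, algebraMap F v.comp (x l) • g (β l) = g (∑ l, x l • β l) := by
    rw [map_sum]
    refine Finset.sum_congr rfl fun l _ => ?_
    rw [map_smul, algebraMap_smul]
  rw [h6] at h5
  have hval : ∀ j ≤ b, ‖(g (∑ l, x l • β l)).charpoly.coeff j‖ = ‖ϖ‖ ^ ex 0 b j := by
    intro j hj
    exact h5 j (Finset.mem_range.mpr (by omega))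
  have hV : 0 < ‖ϖ‖ := norm_pos_iff.mpr hϖ0
  refine H976.Newt.newt_splits (w := NormedField.valuation) (H976.Newt.hen_of_norm _ fun x => ?_)
    (Matrix.charpoly_monic _) (n := b)
    (by rw [Matrix.charpoly_natDegree_eq_dim, Fintype.card_fin]) ?_ ?_
  · rfl
  · rw [← norm_pos_iff, hval 0 (Nat.zero_le _)]
    exact pow_pos hV _
  · intro i hi hin
    have key : ‖(g (∑ l, x l • β l)).charpoly.coeff (i - 1)‖ *
        ‖(g (∑ l, x l • β l)).charpoly.coeff (i + 1)‖ <
        ‖(g (∑ l, x l • β l)).charpoly.coeff i‖ ^ 2 := by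
      rw [hval _ (by omega), hval _ (by omega), hval _ (by omega), ← pow_add, ← pow_mul]
      apply pow_lt_pow_right_of_lt_one₀ hV hϖ1
      have h1 := ex_succ (m := 0) (n := b) (i := i - 1) (by omega)
      have h2 := ex_succ (m := 0) (n := b) (i := i) hin
      have h3 : i - 1 + 1 = i := by omega
      rw [h3] at h1
      omega
    exact_mod_cast key

/-- Almost all places split the algebra. -/
theorem exists_spl_setF (hB : finrank F B = b ^ 2) :
    ∃ S : Finset (Place F), ∀ v ∉ S, Spl B b (algebraMap F v.comp) := by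
  let _ : StarRing F := starRingOfComm
  have hfix : ∀ x : F, star x = x ↔ x ∈ Set.range (algebraMap F F) := fun x =>
    ⟨fun _ => ⟨x, rfl⟩, fun _ => rfl⟩
  obtain ⟨T, hT⟩ := H961.exists_split_ae (k := F) (K := F) (A := B) hfix
    (deg_pos hB).ne' hB
  refine ⟨T, fun v hv => ?_⟩
  obtain ⟨g, hg⟩ := @hT v hv v.comp (nnfPlace v) _ _ (algebraMap F v.comp) (fun c => norm_alg v c)
  exact ⟨g, hg⟩

/-- There are infinitely many places. -/
theorem exists_notMemF (T : Finset (Place F)) : ∃ v : Place F, v ∉ T := by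
  classical
  by_contra hcon
  push Not at hcon
  have hinf : Infinite F := Vale.Agent.P011.Hey.gff_infinite F
  have hE := place_finite_le (k := F) (fun _ => 1) (by
    have : {v : Place F | (1 : ℝ) < 1} = ∅ := by
      ext v
      simp
    rw [this]
    exact Set.finite_empty)
  obtain ⟨q⟩ : Nonempty (Place F) := by
    by_contra h
    rw [not_nonempty_iff] at h
    exact Set.infinite_univ (α := F) (hE.subset fun x _ v => (h.false v).elim)
  choose π hπ using fun v : Place F => H73.Sp.exists_lt_one v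
  obtain ⟨x, hx⟩ := H73.Sp.approx_set T.finite_toSet (fun v => (π v : F))
    (fun v => v.abv (π v : F)) fun v => v.abv.pos (π v).ne_zero
  have h1 : ∀ v : Place F, v.abv x = v.abv (π v : F) := by
    intro v
    have e : x = (π v : F) + (x - π v) := by ring
    have := H73.Sp.add_eq_left v (x := (π v : F)) (y := x - π v) (hx v (hcon v))
    rwa [← e] at this
  have hinj : Function.Injective fun n : ℕ => x ^ n := by
    intro a b h
    have h2 : q.abv x ^ a = q.abv x ^ b := by
      rw [← map_pow, ← map_pow]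
      exact congrArg q.abv h
    rw [h1] at h2
    exact pow_right_injective₀ (q.abv.pos (π q).ne_zero) (hπ q).ne h2
  refine Set.infinite_range_of_injective hinj (hE.subset ?_)
  rintro _ ⟨n, rfl⟩ v
  change v.abv (x ^ n) ≤ 1
  rw [map_pow, h1]
  exact pow_le_one₀ (v.abv.nonneg _) (hπ v).le

theorem exists_local_splitF' (hB : finrank F B = b ^ 2) (v : Place F)
    (hv : Spl B b (algebraMap F v.comp)) {N : ℕ} (β : Basis (Fin N) F B) :
    ∃ (a : Fin N → F) (γ : ℝ), 0 < γ ∧ ∀ x : Fin N → F,
      (∀ l, v.abv (x l - a l) < γ) → (minpoly F (∑ l, x l • β l)).natDegree = b ∧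
        ((minpoly F (∑ l, x l • β l)).map (algebraMap F v.comp)).Splits ∧
        ((minpoly F (∑ l, x l • β l)).map (algebraMap F v.comp)).Separable := by
  obtain ⟨g⟩ := spl_iff.mp hv
  obtain ⟨a, γ, hγ, h⟩ := exists_local_splitF hB v g β
  refine ⟨a, γ, hγ, fun x hx => ?_⟩
  obtain ⟨h1, h2⟩ := h x hx
  have h3 := charpoly_dvd g _ h1 h2
  have hm : (minpoly F (∑ l, x l • β l)).Monic := minpoly.monic (IsIntegral.of_finite F _)
  have h4 : (minpoly F (∑ l, x l • β l)).natDegree ≤ b := natDegree_le hB _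
  have h5 : (g (∑ l, x l • β l)).charpoly.natDegree = b := by
    rw [Matrix.charpoly_natDegree_eq_dim, Fintype.card_fin]
  have h6 : (g (∑ l, x l • β l)).charpoly =
      (minpoly F (∑ l, x l • β l)).map (algebraMap F v.comp) :=
    (eq_of_monic_of_dvd_of_natDegree_le (Matrix.charpoly_monic _) (hm.map _) h3 (by
      rw [natDegree_map, h5]
      exact h4)).symm
  rw [← h6]
  refine ⟨?_, h1, h2⟩
  rw [← h5, h6, natDegree_map]

/-- **Split maximal subfields over a global function field**, generator form. -/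
theorem exists_split_maxF (hB : finrank F B = b ^ 2) (V : Finset (Place F))
    (hV : ∀ v ∈ V, Spl B b (algebraMap F v.comp)) :
    ∃ t : B, (minpoly F t).natDegree = b ∧ (minpoly F t).Separable ∧
      ∀ v ∈ V, ((minpoly F t).map (algebraMap F v.comp)).Splits ∧
        ((minpoly F t).map (algebraMap F v.comp)).Separable := by
  classical
  obtain ⟨S, hS⟩ := exists_spl_setF (F := F) hB
  obtain ⟨v0, hv0⟩ := exists_notMemF S
  have hV' : ∀ v ∈ insert v0 V, Spl B b (algebraMap F v.comp) := by
    intro v hv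
    rcases Finset.mem_insert.mp hv with rfl | hv
    · exact hS v hv0
    · exact hV v hv
  choose! a γ hγ h using fun v hv => exists_local_splitF' hB v (hV' v hv) (finBasis F B)
  have hγ' : ∀ v, 0 < (if v ∈ insert v0 V then γ v else 1) := by
    intro v
    split_ifs with hv
    · exact hγ v hv
    · exact one_pos
  choose x hx using fun l => H73.Sp.approx_set (insert v0 V).finite_toSet (fun v => a v l)
    (fun v => if v ∈ insert v0 V then γ v else 1) hγ'
  have hx' : ∀ v ∈ insert v0 V, ∀ l, v.abv (x l - a v l) < γ v := by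
    intro v hv l
    have h1 := hx l v (Finset.mem_coe.mpr hv)
    rwa [if_pos hv] at h1
  have h0 := h v0 (Finset.mem_insert_self _ _) x (hx' v0 (Finset.mem_insert_self _ _))
  refine ⟨∑ l, x l • finBasis F B l, h0.1, ?_, fun v hv => ?_⟩
  · exact (Polynomial.separable_map _).mp h0.2.2
  · exact (h v (Finset.mem_insert_of_mem hv) x (hx' v (Finset.mem_insert_of_mem hv))).2

/-- **Split maximal subfields over a global function field.** -/
theorem exists_split_fieldF (hB : finrank F B = b ^ 2) (V : Finset (Place F))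
    (hV : ∀ v ∈ V, Spl B b (algebraMap F v.comp)) :
    ∃ (E : Type) (_ : Field E) (_ : GFF E) (_ : Algebra F E) (_ : FiniteDimensional F E)
      (_ : Algebra.IsSeparable F E) (_ : E →ₐ[F] B),
      finrank F E = b ∧ ∀ v ∈ V, Nonempty (E →ₐ[F] v.comp) := by
  obtain ⟨t, ht, hsep, hsp⟩ := exists_split_maxF hB V hV
  obtain ⟨L, _, _, _, j, u, hL, hu⟩ := exists_maxfield hB t
  have hG : GFF L := Hey.H63.gff_of_finite (k := F)
  have hmin : minpoly F u = minpoly F t := by
    rw [← hu, minpoly.algHom_eq j j.injective]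
  have hdeg : (minpoly F u).natDegree = finrank F L := by rw [hmin, ht, hL]
  have htop : IntermediateField.adjoin F {u} = ⊤ :=
    (Field.primitive_element_iff_minpoly_natDegree_eq F u).mpr hdeg
  have hsL : Algebra.IsSeparable F L := by
    have h1 : IsSeparable F u := by unfold IsSeparable; rw [hmin]; exact hsep
    have h2 : Algebra.IsSeparable F (IntermediateField.adjoin F {u}) :=
      (IntermediateField.isSeparable_adjoin_simple_iff_isSeparable (F := F) (E := L)).mpr h1
    rw [htop] at h2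
    exact AlgEquiv.Algebra.isSeparable (IntermediateField.topEquiv (F := F) (E := L))
  refine ⟨L, inferInstance, hG, inferInstance, inferInstance, hsL, j, hL, fun v hv => ?_⟩
  obtain ⟨h1, -⟩ := hsp v hv
  have hb := deg_pos hB
  obtain ⟨α, hα⟩ := h1.exists_eval_eq_zero (by
    rw [degree_map]
    intro h0
    have h2 : (minpoly F t).natDegree = 0 := natDegree_eq_of_degree_eq_some h0
    rw [ht] at h2
    exact hb.ne' h2)
  refine exists_algHom u hdeg α ?_
  rw [hmin, aeval_def, ← eval_map]
  exact hα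

end

end Vale.Agent.P011.H380.Good7
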