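import Vale.Agent.P011.H380.Good7.Abhn
import Vale.Agent.P011.Even.Defs

/-!
The conjugate place: splitting at a place gives splitting at the conjugate place.
-/

open NumberField IsDedekindDomain Polynomial Module

set_option linter.unusedSectionVars false

namespace Vale.Agent.P011.H380.Good7

open Vale.Agent.P011.W Vale.Agent.P011.Arith

section twist

variable {K D : Type} [Field K] [StarRing K] [DivisionRing D] [StarRing D] [Algebra K D] {q : ℕ}

theorem spl_star (hst : ∀ c : K, star (algebraMap K D c) = algebraMap K D (star c)) {R : Type}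
    [Field R] {φ : K →+* R} (h : Spl D q (φ.comp (starRingEnd K))) : Spl D q φ := by
  obtain ⟨f, hf⟩ := h
  refine ⟨{ toFun := fun x => (f (star x)).transpose
            map_one' := by rw [star_one, map_one, Matrix.transpose_one]
            map_mul' := fun x y => by rw [star_mul, map_mul, Matrix.transpose_mul]
            map_zero' := by rw [star_zero, map_zero, Matrix.transpose_zero]
            map_add' := fun x y => by rw [star_add, map_add, Matrix.transpose_add] }, fun c => ?_⟩
  change (f (star (algebraMap K D c))).transpose = _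
  rw [hst, hf]
  have h1 : (φ.comp (starRingEnd K)) (star c) = φ c := by
    rw [RingHom.comp_apply, starRingEnd_apply, star_star]
  rw [h1, Matrix.scalar_apply, Matrix.diagonal_transpose]

end twist

section place

variable {K D : Type} [Field K] [NumberField K] [StarRing K] [DivisionRing D] [StarRing D]
  [Algebra K D] {n : ℕ}

theorem mem_iff_val {L : Type} [Field L] [NumberField L] (W : HeightOneSpectrum (𝓞 L)) (x : 𝓞 L) :
    x ∈ W.asIdeal ↔ W.valuation L (algebraMap (𝓞 L) L x) < 1 := by
  rw [HeightOneSpectrum.valuation_lt_one_iff_mem]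

/-- **Transport of a target to the conjugate place.** -/
theorem target_conj (hst : ∀ c : K, star (algebraMap K D c) = algebraMap K D (star c))
    {w w' : HeightOneSpectrum (𝓞 K)} (hw : ∀ z, w'.valuation K (star z) = w.valuation K z)
    {f : K[X]}
    (h : ∀ (L : Type) [Field L] [NumberField L] [Algebra K L] (W : HeightOneSpectrum (𝓞 L)),
        W.asIdeal.comap (algebraMap (𝓞 K) (𝓞 L)) = w.asIdeal →
        ∀ ξ : L, aeval ξ (f.map (starRingEnd K)) = 0 → Spl D n (pl (F := K) L W))
    (L : Type) [Field L] [NumberField L] [A : Algebra K L] (W : HeightOneSpectrum (𝓞 L))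
    (hW : W.asIdeal.comap (algebraMap (𝓞 K) (𝓞 L)) = w'.asIdeal) (ξ : L) (hξ : aeval ξ f = 0) :
    Spl D n (pl (F := K) L W) := by
  obtain ⟨ψ, hψ⟩ : ∃ ψ : K →+* L, ψ = (algebraMap K L).comp (starRingEnd K) := ⟨_, rfl⟩
  have hψs : ψ.comp (starRingEnd K) = algebraMap K L := by
    ext x
    rw [hψ, RingHom.comp_apply, RingHom.comp_apply, starRingEnd_apply, starRingEnd_apply, star_star]
  have hval : ∀ x : K, W.valuation L (ψ x) < 1 ↔ w.valuation K x < 1 := by
    intro x
    rw [hψ, RingHom.comp_apply, starRingEnd_apply, Arith.val_lt_one_iff hW, hw]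
  have hspl : Spl D n ((algebraMap L (W.adicCompletion L)).comp ψ) := by
    let _ : Algebra K L := ψ.toAlgebra
    refine h L W ?_ ξ ?_
    · ext x
      rw [Ideal.mem_comap, mem_iff_val, mem_iff_val]
      exact hval _
    · have h1 : (algebraMap K L : K →+* L) = ψ := rfl
      rw [aeval_def, eval₂_map, h1, hψs]
      exact hξ
  refine spl_star hst ?_
  rwa [hψ, ← RingHom.comp_assoc] at hspl

end place

end Vale.Agent.P011.H380.Good7
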